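import Mathlib.Logic.Relation
import Mathlib.Data.Finset.Max
import Mathlib.Data.Fintype.Basic
import Mathlib.Data.Fintype.Card
import Mathlib.Data.Fin.Basic
import Mathlib.Data.Fintype.Order
import Mathlib.Order.Fin.Basic
import Mathlib.Tactic.Linarith

/-!
Perfect elimination data of a multigraph of bounded treewidth: an order of the vertices in which
every vertex has a clique of at most `w` later neighbours, and the tree of descendants it gives.
-/

namespace Vale.Agent.P061.TW

open Finset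

/-- The edges with exactly one endpoint in `S`. -/
def cutOf {V E : Type} [DecidableEq V] [Fintype E] (lo hi : E → V) (S : Finset V) : Finset E :=
  univ.filter fun e => ¬(lo e ∈ S ↔ hi e ∈ S)

/-- An eliminated multigraph on `Fin (m+1)`. -/
structure Sys (m : ℕ) (E : Type) [Fintype E] (w k : ℕ) where
  nb : Fin (m + 1) → Finset (Fin (m + 1))
  lo : E → Fin (m + 1)
  hi : E → Fin (m + 1)
  nb_gt : ∀ u, ∀ v ∈ nb u, u < v
  nb_card : ∀ u, (nb u).card ≤ w
  nb_clique : ∀ u, ∀ p ∈ nb u, ∀ q ∈ nb u, p < q → q ∈ nb p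
  hi_mem : ∀ e, hi e ∈ nb (lo e)
  k_pos : 1 ≤ k
  conn : ∀ S : Finset (Fin (m + 1)), S.Nonempty → Fin.last m ∉ S → k ≤ (cutOf lo hi S).card

namespace Sys

variable {m : ℕ} {E : Type} [Fintype E] {w k : ℕ} (G : Sys m E w k)

/-- `b` is the least later neighbour of `a`. -/
def IsPar (a b : Fin (m + 1)) : Prop := b ∈ G.nb a ∧ ∀ x ∈ G.nb a, b ≤ x

/-- `u` is a descendant of `q` (or equal to it). -/
def Desc (u q : Fin (m + 1)) : Prop := Relation.ReflTransGen G.IsPar u q

open scoped Classical in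
/-- The descendants of `q`. -/
noncomputable def D (q : Fin (m + 1)) : Finset (Fin (m + 1)) :=
  univ.filter fun u => G.Desc u q

/-- Edges crossing `S`. -/
def cut (S : Finset (Fin (m + 1))) : Finset E := cutOf G.lo G.hi S

lemma mem_cut {S : Finset (Fin (m + 1))} {e : E} :
    e ∈ G.cut S ↔ ¬(G.lo e ∈ S ↔ G.hi e ∈ S) := by
  simp [cut, cutOf]

lemma cut_compl (S : Finset (Fin (m + 1))) : G.cut Sᶜ = G.cut S := by
  ext e
  simp only [mem_cut, mem_compl]
  tauto

lemma k_le_cut {S : Finset (Fin (m + 1))} (hne : S.Nonempty) (hS : Fin.last m ∉ S) :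
    k ≤ (G.cut S).card := G.conn S hne hS

lemma mem_D {u q : Fin (m + 1)} : u ∈ G.D q ↔ G.Desc u q := by simp [D]

lemma desc_le {u q : Fin (m + 1)} (h : G.Desc u q) : u ≤ q := by
  induction h with
  | refl => exact le_rfl
  | tail _ h ih => exact le_trans ih (G.nb_gt _ _ h.1).le

lemma desc_refl (u : Fin (m + 1)) : G.Desc u u := Relation.ReflTransGen.refl

lemma desc_trans {a b c : Fin (m + 1)} (h : G.Desc a b) (h' : G.Desc b c) : G.Desc a c :=
  Relation.ReflTransGen.trans h h'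

lemma mem_D_self (q : Fin (m + 1)) : q ∈ G.D q := G.mem_D.mpr (G.desc_refl q)

lemma isPar_unique {a b c : Fin (m + 1)} (hb : G.IsPar a b) (hc : G.IsPar a c) : b = c :=
  le_antisymm (hb.2 c hc.1) (hc.2 b hb.1)

lemma exists_isPar {a : Fin (m + 1)} (h : (G.nb a).Nonempty) : ∃ b, G.IsPar a b :=
  ⟨(G.nb a).min' h, (G.nb a).min'_mem h, fun x hx => (G.nb a).min'_le x hx⟩

lemma desc_comparable {u p q : Fin (m + 1)} (hp : G.Desc u p) (hq : G.Desc u q) :
    G.Desc p q ∨ G.Desc q p :=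
  Relation.ReflTransGen.total_of_right_unique
    (fun _ _ _ h h' => G.isPar_unique h h') hp hq

lemma desc_of_le {u p q : Fin (m + 1)} (hp : G.Desc u p) (hq : G.Desc u q) (hpq : p ≤ q) :
    G.Desc p q := by
  rcases G.desc_comparable hp hq with h | h
  · exact h
  · rw [le_antisymm hpq (G.desc_le h)]
    exact G.desc_refl q

lemma D_mono {p q : Fin (m + 1)} (h : G.Desc p q) : G.D p ⊆ G.D q := fun _ hx =>
  G.mem_D.mpr (G.desc_trans (G.mem_D.mp hx) h)

lemma D_disjoint {p q : Fin (m + 1)} (h : ¬ G.Desc p q) (h' : ¬ G.Desc q p) :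
    ∀ x ∈ G.D p, x ∉ G.D q := by
  intro x hx hx'
  rcases G.desc_comparable (G.mem_D.mp hx) (G.mem_D.mp hx') with h1 | h1
  exacts [h h1, h' h1]

lemma last_notMem_D {q : Fin (m + 1)} (hq : q ≠ Fin.last m) : Fin.last m ∉ G.D q := fun h =>
  hq (le_antisymm (Fin.le_last q) (G.desc_le (G.mem_D.mp h)))

lemma last_notMem_of_subset {q : Fin (m + 1)} (hq : q ≠ Fin.last m) {d : Finset (Fin (m + 1))}
    (hd : d ⊆ G.D q) : Fin.last m ∉ d := fun h => G.last_notMem_D hq (hd h)

/-- A later neighbour is an ancestor. -/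
lemma desc_of_mem_nb : ∀ (u v : Fin (m + 1)), v ∈ G.nb u → G.Desc u v := by
  intro u
  induction u using WellFoundedGT.induction with
  | ind u ih =>
    intro v hv
    obtain ⟨p, hp⟩ := G.exists_isPar ⟨v, hv⟩
    rcases eq_or_lt_of_le (hp.2 v hv) with rfl | hlt
    · exact Relation.ReflTransGen.single hp
    · exact Relation.ReflTransGen.head hp
        (ih p (G.nb_gt u p hp.1) v (G.nb_clique u p hp.1 v hv hlt))

/-- Later neighbours of descendants of `q` are descendants or later neighbours of `q`. -/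
lemma nb_of_desc {u q : Fin (m + 1)} (h : G.Desc u q) :
    ∀ v ∈ G.nb u, v ∈ G.D q ∨ v ∈ G.nb q := by
  induction h using Relation.ReflTransGen.head_induction_on with
  | refl => exact fun v hv => Or.inr hv
  | head hp hrest ih =>
    rename_i a c
    intro v hv
    rcases eq_or_lt_of_le (hp.2 v hv) with rfl | hlt
    · exact Or.inl (G.mem_D.mpr hrest)
    · exact ih v (G.nb_clique a c hp.1 v hv hlt)

lemma nb_notMem_D {q x : Fin (m + 1)} (hx : x ∈ G.nb q) : x ∉ G.D q := fun h =>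
  absurd (G.desc_le (G.mem_D.mp h)) (not_le.mpr (G.nb_gt q x hx))

lemma lo_lt_hi (e : E) : G.lo e < G.hi e := G.nb_gt _ _ (G.hi_mem e)

lemma lo_mem_of_hi {q : Fin (m + 1)} {e : E} (h : G.hi e ∈ G.D q) : G.lo e ∈ G.D q :=
  G.mem_D.mpr (G.desc_trans (G.desc_of_mem_nb _ _ (G.hi_mem e)) (G.mem_D.mp h))

lemma hi_of_lo {q : Fin (m + 1)} {e : E} (h : G.lo e ∈ G.D q) :
    G.hi e ∈ G.D q ∨ G.hi e ∈ G.nb q :=
  G.nb_of_desc (G.mem_D.mp h) _ (G.hi_mem e)

lemma lo_mem_of_cut {q : Fin (m + 1)} {d : Finset (Fin (m + 1))} (hd : d ⊆ G.D q) {e : E}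
    (he : e ∈ G.cut d) : G.lo e ∈ G.D q := by
  rw [mem_cut] at he
  by_cases h : G.lo e ∈ d
  · exact hd h
  · have : G.hi e ∈ d := by tauto
    exact G.lo_mem_of_hi (hd this)

lemma nb_nonempty {q : Fin (m + 1)} (hq : q ≠ Fin.last m) : (G.nb q).Nonempty := by
  by_contra hcon
  rw [not_nonempty_iff_eq_empty] at hcon
  have hk := G.k_le_cut ⟨q, G.mem_D_self q⟩ (G.last_notMem_D hq)
  have : G.cut (G.D q) = ∅ := by
    refine eq_empty_of_forall_notMem fun e he => ?_
    have hlo := G.lo_mem_of_cut (Subset.refl _) he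
    have hhi : G.hi e ∈ G.D q := by simpa [hcon] using G.hi_of_lo hlo
    exact G.mem_cut.mp he (iff_of_true hlo hhi)
  rw [this] at hk
  have := G.k_pos
  simp at hk
  omega

/-- Descendants of an optional vertex. -/
noncomputable def Db : Option (Fin (m + 1)) → Finset (Fin (m + 1))
  | none => ∅
  | some b => G.D b

/-- Later neighbours of an optional vertex. -/
def Nb : Option (Fin (m + 1)) → Finset (Fin (m + 1))
  | none => ∅
  | some b => G.nb b

/-- `b` is absent or a strict descendant of `q`. -/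
def Below (b : Option (Fin (m + 1))) (q : Fin (m + 1)) : Prop :=
  ∀ x ∈ b, x ∈ G.D q ∧ x ≠ q

/-- Edges whose lower endpoint is below `q` but not below `b`. -/
noncomputable def seg (q : Fin (m + 1)) (b : Option (Fin (m + 1))) : Finset E :=
  univ.filter fun e => G.lo e ∈ G.D q ∧ G.lo e ∉ G.Db b

lemma mem_seg {q : Fin (m + 1)} {b : Option (Fin (m + 1))} {e : E} :
    e ∈ G.seg q b ↔ G.lo e ∈ G.D q ∧ G.lo e ∉ G.Db b := by
  simp [seg]

lemma Nb_card (b : Option (Fin (m + 1))) : (G.Nb b).card ≤ w := by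
  cases b with
  | none => simp [Nb]
  | some b => exact G.nb_card b

lemma Db_subset {b : Option (Fin (m + 1))} {q : Fin (m + 1)} (h : G.Below b q) :
    G.Db b ⊆ G.D q := by
  cases b with
  | none => simp [Db]
  | some b => exact G.D_mono (G.mem_D.mp (h b rfl).1)

lemma self_notMem_Db {b : Option (Fin (m + 1))} {q : Fin (m + 1)} (h : G.Below b q) :
    q ∉ G.Db b := by
  cases b with
  | none => simp [Db]
  | some b =>
    intro hq
    exact (h b rfl).2
      (le_antisymm (G.desc_le (G.mem_D.mp (h b rfl).1)) (G.desc_le (G.mem_D.mp hq)))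

lemma lo_Db_of_hi {b : Option (Fin (m + 1))} {e : E} (h : G.hi e ∈ G.Db b) :
    G.lo e ∈ G.Db b := by
  cases b with
  | none => simp [Db] at h
  | some b => exact G.lo_mem_of_hi h

lemma hi_of_lo_Db {b : Option (Fin (m + 1))} {e : E} (h : G.lo e ∈ G.Db b) :
    G.hi e ∈ G.Db b ∨ G.hi e ∈ G.Nb b := by
  cases b with
  | none => simp [Db] at h
  | some b => exact G.hi_of_lo h

lemma hi_notMem_Db {b : Option (Fin (m + 1))} {e : E} (h : G.lo e ∉ G.Db b) :
    G.hi e ∉ G.Db b := fun h' => h (G.lo_Db_of_hi h')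

end Sys

end Vale.Agent.P061.TW
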