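import Vale.Agent.P061.TW.Light
import Mathlib.Data.Fin.Tuple.Basic

/-!
Along the ancestors of one vertex, only boundedly many good edges cross one cut.
-/

namespace Vale.Agent.P061.TW

open Finset

namespace Sys

variable {m : ℕ} {E : Type} [Fintype E] [DecidableEq E] {w k : ℕ} (G : Sys m E w k)

/-- The data that a crossed merge `q` above `b` provides. -/
def Hit (e : Fin (m + 1) → E) (b q : Fin (m + 1)) : Prop :=
  q ≠ Fin.last m ∧ G.Desc b q ∧ b ≠ q ∧ e q ∈ G.F q ∧ G.lo (e q) ∉ G.D b ∧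
    ∃ d ⊆ G.D q \ G.D b, (G.lo (e q) ∈ d ∨ G.hi (e q) ∈ d) ∧
      (G.seg q (some b) ∩ G.cut d).card * cB w < 4 * k

lemma seg_cut_eq {b q n0 : Fin (m + 1)} (hqn : G.Desc q n0) {d : Finset (Fin (m + 1))}
    (hd : d ⊆ G.D q) : G.seg n0 (some b) ∩ G.cut d = G.seg q (some b) ∩ G.cut d := by
  ext f
  simp only [mem_inter, mem_seg]
  constructor
  · rintro ⟨⟨-, h2⟩, h3⟩
    exact ⟨⟨G.lo_mem_of_cut hd h3, h2⟩, h3⟩
  · rintro ⟨⟨h1, h2⟩, h3⟩
    exact ⟨⟨G.D_mono hqn h1, h2⟩, h3⟩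

lemma seg_cut_sdiff {b n0 : Fin (m + 1)} (P d : Finset (Fin (m + 1))) :
    G.seg n0 (some b) ∩ G.cut (P \ d) ⊆
      (G.seg n0 (some b) ∩ G.cut P) ∪ (G.seg n0 (some b) ∩ G.cut d) := by
  intro f hf
  obtain ⟨h1, h2⟩ := mem_inter.mp hf
  rw [mem_cut, mem_sdiff, mem_sdiff] at h2
  simp only [mem_union, mem_inter, mem_cut, h1, true_and]
  tauto

lemma hit_step {e : Fin (m + 1) → E} {b q : Fin (m + 1)} (h : G.Hit e b q) :
    ∃ c, G.Desc b c ∧ c < q ∧ G.lo (e q) ∉ G.D c ∧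
      ∀ p, c < p → p ≤ q → G.Desc b p → G.Meets q (insert p (G.nb p)) := by
  classical
  obtain ⟨hq, hbq, hne, he, hlo, -⟩ := h
  obtain ⟨c, hc, hmax⟩ := (univ.filter fun c : Fin (m + 1) =>
      G.Desc b c ∧ c < q ∧ G.lo (e q) ∉ G.D c).exists_max_image id
    ⟨b, mem_filter.mpr ⟨mem_univ _, G.desc_refl b, lt_of_le_of_ne (G.desc_le hbq) hne, hlo⟩⟩
  simp only [mem_filter, mem_univ, true_and, id_eq, and_imp] at hc hmax
  obtain ⟨h1, h2, h3⟩ := hc
  refine ⟨c, h1, h2, h3, fun p hcp hpq hbp => ?_⟩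
  rcases eq_or_lt_of_le hpq with rfl | hlt
  · exact ⟨⟨p, mem_insert_self _ _, G.rt_self p⟩,
      ⟨G.tgt p, mem_insert_of_mem (G.tgt_mem hq), G.rt_tgt hq⟩⟩
  · have hlop : G.lo (e q) ∈ G.D p := by
      by_contra hcon
      exact absurd (hmax p hbp hlt hcon) (not_le.mpr hcp)
    obtain ⟨⟨z, hz, hz'⟩, ⟨z', hzz, hzz'⟩⟩ := G.meets_window he hlt hlop
    exact ⟨⟨z, mem_insert_of_mem hz, hz'⟩, ⟨z', mem_insert_of_mem hzz, hzz'⟩⟩

lemma card_le_of_pieces {b c0 n0 : Fin (m + 1)} (hn0 : n0 ≠ Fin.last m) (hb : G.Desc b c0)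
    {t : ℕ} (ht : t ≤ w + 1) (P : Fin t → Finset (Fin (m + 1)))
    (hP : ∀ i, P i ⊆ G.D n0 \ G.D b) (hdisj : ∀ i j, i ≠ j → ∀ x ∈ P i, x ∉ P j)
    (hout : ∀ i, ∃ z ∈ P i, z ∉ G.D c0)
    (hcut : ∀ i, (G.seg n0 (some b) ∩ G.cut (P i)).card * cB w ≤ t * (4 * k)) : t ≤ w := by
  choose f hf hfN using fun i => G.piece_meets hn0 hb (hP i) (hout i) ht (hcut i)
  have := card_le_card_of_injOn (s := (univ : Finset (Fin t))) (t := G.nb c0) f
    (fun i _ => hfN i) (fun i _ j _ h => by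
      by_contra hne
      exact hdisj i j hne (f i) (hf i) (h ▸ hf j))
  rw [card_univ, Fintype.card_fin] at this
  exact le_trans this (G.nb_card c0)

open scoped Classical in
lemma chain_aux {e : Fin (m + 1) → E} {b n0 : Fin (m + 1)} (hn0 : n0 ≠ Fin.last m)
    (H : Finset (Fin (m + 1))) (hH : ∀ q ∈ H, G.Hit e b q ∧ G.Desc q n0) :
    ∀ (c0 : Fin (m + 1)), G.Desc b c0 → ∀ (t : ℕ) (P : Fin t → Finset (Fin (m + 1))),
      t ≤ w + 1 → (∀ i, P i ⊆ G.D n0 \ G.D b) → (∀ i j, i ≠ j → ∀ x ∈ P i, x ∉ P j) →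
      (∀ i, ∃ z ∈ P i, z ∉ G.D c0) →
      (∀ i, (G.seg n0 (some b) ∩ G.cut (P i)).card * cB w ≤ t * (4 * k)) →
      t ≤ w ∧ (H.filter fun q => q ≤ c0).card + t * (w + 1) ≤ w * (w + 1) := by
  intro c0
  induction c0 using WellFoundedLT.induction with
  | ind c0 ih =>
    intro hb0 t P ht hP hdisj hout hcut
    have htw := G.card_le_of_pieces hn0 hb0 ht P hP hdisj hout hcut
    refine ⟨htw, ?_⟩
    rcases (H.filter fun q => q ≤ c0).eq_empty_or_nonempty with he | hne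
    · rw [he, card_empty, Nat.zero_add]
      exact Nat.mul_le_mul_right _ htw
    have hex : ∀ q ∈ H, ∃ c, G.Desc b c ∧ c < q ∧ G.lo (e q) ∉ G.D c ∧
        ∀ p, c < p → p ≤ q → G.Desc b p → G.Meets q (insert p (G.nb p)) :=
      fun q hq => G.hit_step (hH q hq).1
    choose! c hc1 hc2 hc3 hc4 using hex
    obtain ⟨qs, hqs, hmax⟩ := (H.filter fun q => q ≤ c0).exists_max_image c hne
    obtain ⟨hqsH, hqs0⟩ := mem_filter.mp hqs
    obtain ⟨⟨hqlast, hbqs, -, -, -, d, hdsub, hyd, hdcut⟩, hqn⟩ := hH qs hqsH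
    have hc0 : c qs < c0 := lt_of_lt_of_le (hc2 qs hqsH) hqs0
    have hd0 : d ⊆ G.D c0 := fun x hx =>
      G.D_mono (G.desc_of_le hbqs hb0 hqs0) (mem_sdiff.mp (hdsub hx)).1
    have hdc : ∃ z ∈ d, z ∉ G.D (c qs) := by
      rcases hyd with h | h
      · exact ⟨_, h, hc3 qs hqsH⟩
      · exact ⟨_, h, fun h' => hc3 qs hqsH (G.lo_mem_of_hi h')⟩
    have hmono := G.D_mono (G.desc_of_le (hc1 qs hqsH) hb0 hc0.le)
    set P' : Fin (t + 1) → Finset (Fin (m + 1)) := Fin.cons d (fun i => P i \ d) with hP'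
    obtain ⟨-, hrec⟩ := ih (c qs) hc0 (hc1 qs hqsH) (t + 1) P' (by omega)
      (fun i => by
        refine Fin.cases ?_ (fun i => ?_) i
        · intro x hx
          simp only [hP', Fin.cons_zero] at hx
          exact mem_sdiff.mpr
            ⟨G.D_mono hqn (mem_sdiff.mp (hdsub hx)).1, (mem_sdiff.mp (hdsub hx)).2⟩
        · simp only [hP', Fin.cons_succ]
          exact sdiff_subset.trans (hP i))
      (fun i j => by
        refine Fin.cases ?_ (fun i => ?_) i <;> refine Fin.cases ?_ (fun j => ?_) j <;>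
          intro hij x hx <;> simp only [hP', Fin.cons_zero, Fin.cons_succ, mem_sdiff] at hx ⊢
        · exact absurd rfl hij
        · exact fun h => h.2 hx
        · exact hx.2
        · exact fun h => hdisj i j (fun e => hij (congrArg Fin.succ e)) x hx.1 h.1)
      (fun i => by
        refine Fin.cases ?_ (fun i => ?_) i
        · simpa [hP'] using hdc
        · obtain ⟨z, hz, hz'⟩ := hout i
          refine ⟨z, ?_, fun h => hz' (hmono h)⟩
          simp only [hP', Fin.cons_succ, mem_sdiff]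
          exact ⟨hz, fun h => hz' (hd0 h)⟩)
      (fun i => by
        have hdc' : (G.seg n0 (some b) ∩ G.cut d).card * cB w < 4 * k := by
          rw [G.seg_cut_eq hqn (fun x hx => (mem_sdiff.mp (hdsub hx)).1)]
          exact hdcut
        refine Fin.cases ?_ (fun i => ?_) i
        · simp only [hP', Fin.cons_zero, Nat.add_mul, Nat.one_mul]
          omega
        · simp only [hP', Fin.cons_succ, Nat.add_mul, Nat.one_mul]
          have h1 := Nat.mul_le_mul_right (cB w)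
            (le_trans (card_le_card (G.seg_cut_sdiff (b := b) (n0 := n0) (P i) d)) (card_union_le _ _))
          rw [Nat.add_mul] at h1
          have := hcut i
          omega)
    obtain ⟨p, hp⟩ := G.exists_isPar
      (G.nb_nonempty (ne_of_lt (lt_of_lt_of_le hc0 (Fin.le_last c0))))
    have hsub : (H.filter fun q => q ≤ c0) ⊆ (H.filter fun q => q ≤ c qs) ∪
        univ.filter fun q => q ≠ Fin.last m ∧ G.Meets q (insert p (G.nb p)) := by
      intro q hq
      obtain ⟨hqH, -⟩ := mem_filter.mp hq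
      rcases le_or_gt q (c qs) with h | h
      · exact mem_union_left _ (mem_filter.mpr ⟨hqH, h⟩)
      refine mem_union_right _ (mem_filter.mpr ⟨mem_univ _, (hH q hqH).1.1, ?_⟩)
      have hbp : G.Desc b p := G.desc_trans (hc1 qs hqsH) (Relation.ReflTransGen.single hp)
      have hcq : G.Desc (c qs) q := G.desc_of_le (hc1 qs hqsH) (hH q hqH).1.2.1 h.le
      rcases Relation.ReflTransGen.cases_head hcq with he | ⟨p', hp', hpq⟩
      · exact absurd he h.ne
      rw [G.isPar_unique hp' hp] at hpq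
      exact hc4 q hqH p (lt_of_le_of_lt (hmax q hq) (G.nb_gt _ p hp.1)) (G.desc_le hpq) hbp
    have h1 := le_trans (card_le_card hsub) (card_union_le _ _)
    have h2 := le_trans (G.meets_card (insert p (G.nb p))) (card_insert_le _ _)
    have h3 := G.nb_card p
    rw [Nat.add_mul, Nat.one_mul] at hrec
    omega

open scoped Classical in
lemma chain_bound (e : Fin (m + 1) → E) (b : Fin (m + 1)) (H : Finset (Fin (m + 1)))
    (hH : ∀ q ∈ H, G.Hit e b q) : H.card ≤ w * (w + 1) := by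
  rcases H.eq_empty_or_nonempty with rfl | hne
  · simp
  obtain ⟨n0, hn0, hmax⟩ := H.exists_max_image id hne
  obtain ⟨-, h⟩ := G.chain_aux (hH n0 hn0).1 H
    (fun q hq => ⟨hH q hq, G.desc_of_le (hH q hq).2.1 (hH n0 hn0).2.1 (hmax q hq)⟩)
    n0 (hH n0 hn0).2.1 0 Fin.elim0 (Nat.zero_le _) (fun i => i.elim0) (fun i => i.elim0)
    (fun i => i.elim0) (fun i => i.elim0)
  have hle : ∀ q ∈ H, q ≤ n0 := hmax
  rw [filter_true_of_mem hle] at h
  simpa using h

end Sys

end Vale.Agent.P061.TW
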