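import Vale.Agent.P061.TW.Basic
import Mathlib.Algebra.Order.BigOperators.Group.Finset
import Mathlib.Data.Finset.Union
import Mathlib.Algebra.BigOperators.Ring.Finset

/-!
The merging process: the vertices are processed in elimination order, and the cluster rooted at
the current vertex is joined to the later neighbour whose cluster shares most edges with it.
-/

namespace Vale.Agent.P061.TW

open Finset

namespace Sys

variable {m : ℕ} {E : Type} [Fintype E] {w k : ℕ} (G : Sys m E w k)

/-- Edges joining the classes `a` and `b` of the labelling `R`. -/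
def btw (R : Fin (m + 1) → Fin (m + 1)) (a b : Fin (m + 1)) : Finset E :=
  univ.filter fun e => (R (G.lo e) = a ∧ R (G.hi e) = b) ∨ (R (G.lo e) = b ∧ R (G.hi e) = a)

open scoped Classical in
/-- A later neighbour of `q` whose class shares at least `k/w` edges with the class of `q`. -/
noncomputable def pick (R : Fin (m + 1) → Fin (m + 1)) (q : Fin (m + 1)) : Fin (m + 1) :=
  if h : ∃ r, r ∈ G.nb q ∧ k ≤ w * (G.btw R q r).card then h.choose else q

/-- The root of the cluster of a vertex, after `i` merges. -/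
noncomputable def rt : ℕ → Fin (m + 1) → Fin (m + 1)
  | 0 => id
  | i + 1 => fun u =>
      if h : i < m then
        (if rt i u = ⟨i, by omega⟩ then G.pick (rt i) ⟨i, by omega⟩ else rt i u)
      else rt i u

/-- The vertex with whose cluster the cluster of `q` is merged. -/
noncomputable def tgt (q : Fin (m + 1)) : Fin (m + 1) := G.pick (G.rt q.val) q

/-- The edges between the two clusters merged at step `q`. -/
noncomputable def F (q : Fin (m + 1)) : Finset E := G.btw (G.rt q.val) q (G.tgt q)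

lemma mem_F {q : Fin (m + 1)} {e : E} : e ∈ G.F q ↔
    (G.rt q.val (G.lo e) = q ∧ G.rt q.val (G.hi e) = G.tgt q) ∨
      (G.rt q.val (G.lo e) = G.tgt q ∧ G.rt q.val (G.hi e) = q) := by
  simp [F, btw]

lemma rt_zero (u : Fin (m + 1)) : G.rt 0 u = u := by simp [rt]

lemma rt_succ {i : ℕ} (h : i < m) (u : Fin (m + 1)) :
    G.rt (i + 1) u = if G.rt i u = ⟨i, by omega⟩ then G.tgt ⟨i, by omega⟩ else G.rt i u := by
  simp [rt, h, tgt]

/-- What holds of the roots after `i` merges. -/
def Inv (i : ℕ) : Prop :=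
  (∀ u, i ≤ (G.rt i u).val) ∧ (∀ u, G.Desc u (G.rt i u)) ∧ (∀ r, i ≤ r.val → G.rt i r = r) ∧
    ∀ u q : Fin (m + 1), i ≤ q.val → G.Desc u q → G.Desc (G.rt i u) q ∨ G.rt i u ∈ G.nb q

lemma root_of_inv {q : Fin (m + 1)} (hI : G.Inv q.val) {u : Fin (m + 1)}
    (hu : u ∈ G.D q ∨ u ∈ G.nb q) : G.rt q.val u = q ∨ G.rt q.val u ∈ G.nb q := by
  obtain ⟨h1, -, h3, h4⟩ := hI
  rcases hu with hu | hu
  · rcases h4 u q le_rfl (G.mem_D.mp hu) with h | h
    · exact Or.inl (le_antisymm (G.desc_le h) (h1 u))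
    · exact Or.inr h
  · rw [h3 u (le_of_lt (G.nb_gt q u hu))]
    exact Or.inr hu

lemma tgt_of_inv {q : Fin (m + 1)} (hq : q ≠ Fin.last m) (hI : G.Inv q.val) :
    G.tgt q ∈ G.nb q ∧ k ≤ w * (G.F q).card := by
  classical
  have hex : ∃ r, r ∈ G.nb q ∧ k ≤ w * (G.btw (G.rt q.val) q r).card := by
    obtain ⟨r, hr, hmax⟩ := (G.nb q).exists_max_image
      (fun r => (G.btw (G.rt q.val) q r).card) (G.nb_nonempty hq)
    refine ⟨r, hr, ?_⟩
    set C : Finset (Fin (m + 1)) := univ.filter fun u => G.rt q.val u = q with hC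
    have hqC : q ∈ C := by simp [hC, hI.2.2.1 q le_rfl]
    have hCD : C ⊆ G.D q := by
      intro u hu
      simp only [hC, mem_filter, mem_univ, true_and] at hu
      exact G.mem_D.mpr (by simpa [hu] using hI.2.1 u)
    have h1 := G.k_le_cut ⟨q, hqC⟩ (G.last_notMem_of_subset hq hCD)
    have h2 : G.cut C ⊆ (G.nb q).biUnion fun r => G.btw (G.rt q.val) q r := by
      intro e he
      have hlo := G.lo_mem_of_cut hCD he
      have ha := G.root_of_inv hI (Or.inl hlo : G.lo e ∈ G.D q ∨ G.lo e ∈ G.nb q)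
      have hb := G.root_of_inv hI (G.hi_of_lo hlo)
      simp only [mem_cut, hC, mem_filter, mem_univ, true_and] at he
      rw [mem_biUnion]
      rcases ha with ha | ha
      · rcases hb with hb | hb
        · exact absurd (iff_of_true ha hb) he
        · exact ⟨_, hb, by simp [btw, ha]⟩
      · rcases hb with hb | hb
        · exact ⟨_, ha, by simp [btw, hb]⟩
        · refine absurd (iff_of_false (fun h => ?_) (fun h => ?_)) he
          · exact G.nb_notMem_D (by simpa [h] using ha) (G.mem_D_self q)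
          · exact G.nb_notMem_D (by simpa [h] using hb) (G.mem_D_self q)
    calc k ≤ (G.cut C).card := h1
      _ ≤ ((G.nb q).biUnion fun r => G.btw (G.rt q.val) q r).card := card_le_card h2
      _ ≤ ∑ s ∈ G.nb q, (G.btw (G.rt q.val) q s).card := card_biUnion_le
      _ ≤ ∑ _s ∈ G.nb q, (G.btw (G.rt q.val) q r).card := sum_le_sum hmax
      _ ≤ w * (G.btw (G.rt q.val) q r).card := by
        rw [sum_const_nat (fun _ _ => rfl)]
        exact Nat.mul_le_mul_right _ (G.nb_card q)
  have heq : G.tgt q = hex.choose := by simp [tgt, pick, hex]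
  unfold F
  rw [heq]
  exact hex.choose_spec

lemma inv : ∀ i : ℕ, i ≤ m → G.Inv i := by
  intro i
  induction i with
  | zero =>
    intro _
    refine ⟨fun u => Nat.zero_le _, fun u => ?_, fun r _ => G.rt_zero r, fun u q _ h => ?_⟩
    · rw [rt_zero]
      exact G.desc_refl u
    · rw [rt_zero]
      exact Or.inl h
  | succ i ih =>
    intro hi
    have him : i < m := by omega
    set q0 : Fin (m + 1) := ⟨i, by omega⟩ with hq0
    have hI := ih (by omega)
    obtain ⟨hg, -⟩ := G.tgt_of_inv (q := q0) (by simp [hq0, Fin.ext_iff]; omega) hI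
    obtain ⟨h1, h2, h3, h4⟩ := hI
    have hlt : i < (G.tgt q0).val := G.nb_gt q0 _ hg
    refine ⟨fun u => ?_, fun u => ?_, fun r hr => ?_, fun u q hq hu => ?_⟩ <;>
      rw [G.rt_succ him]
    · split_ifs with h
      · have : (G.tgt ⟨i, by omega⟩).val = (G.tgt q0).val := rfl
        omega
      · have := h1 u
        have hne : (G.rt i u).val ≠ i := fun e => h (Fin.ext e)
        omega
    · split_ifs with h
      · exact G.desc_trans (by simpa [h] using h2 u) (G.desc_of_mem_nb _ _ hg)
      · exact h2 u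
    · rw [h3 r (by omega)]
      rw [if_neg]
      intro h
      rw [h] at hr
      simp at hr
    · split_ifs with h
      · rcases h4 u q (by omega) hu with h5 | h5
        · rw [h] at h5
          exact (G.nb_of_desc h5 _ hg).imp_left G.mem_D.mp
        · rw [h] at h5
          have := G.nb_gt q _ h5
          rw [Fin.lt_def] at this
          simp at this
          omega
      · exact h4 u q (by omega) hu

lemma inv_at (q : Fin (m + 1)) : G.Inv q.val := G.inv q.val (Nat.le_of_lt_succ q.isLt)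

lemma tgt_mem {q : Fin (m + 1)} (hq : q ≠ Fin.last m) : G.tgt q ∈ G.nb q :=
  (G.tgt_of_inv hq (G.inv_at q)).1

lemma k_le_F {q : Fin (m + 1)} (hq : q ≠ Fin.last m) : k ≤ w * (G.F q).card :=
  (G.tgt_of_inv hq (G.inv_at q)).2

lemma lt_m {q : Fin (m + 1)} (hq : q ≠ Fin.last m) : q.val < m := Fin.val_lt_last hq

lemma rt_self (q : Fin (m + 1)) : G.rt q.val q = q := (G.inv_at q).2.2.1 q le_rfl

lemma rt_tgt {q : Fin (m + 1)} (hq : q ≠ Fin.last m) : G.rt q.val (G.tgt q) = G.tgt q :=
  (G.inv_at q).2.2.1 _ (le_of_lt (G.nb_gt q _ (G.tgt_mem hq)))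

lemma tgt_ne {q : Fin (m + 1)} (hq : q ≠ Fin.last m) : G.tgt q ≠ q :=
  ne_of_gt (G.nb_gt q _ (G.tgt_mem hq))

lemma rt_next {q : Fin (m + 1)} (hq : q ≠ Fin.last m) (u : Fin (m + 1)) :
    G.rt (q.val + 1) u = if G.rt q.val u = q then G.tgt q else G.rt q.val u := by
  simpa using G.rt_succ (lt_m hq) u

lemma rt_congr {u v : Fin (m + 1)} : ∀ {i j : ℕ}, i ≤ j → G.rt i u = G.rt i v →
    G.rt j u = G.rt j v := by
  intro i j hij h
  induction hij with
  | refl => exact h
  | step _ ih => simp [rt, ih]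

/-- The clusters of the vertices in `D b ∪ nb b` meet `nb b` once `b` has been processed. -/
lemma meets_nb {b u : Fin (m + 1)} (hb : b ≠ Fin.last m) (hu : u ∈ G.D b ∨ u ∈ G.nb b) {i : ℕ}
    (hi : b.val < i) : ∃ z ∈ G.nb b, G.rt i z = G.rt i u := by
  rcases G.root_of_inv (G.inv_at b) hu with h | h
  · refine ⟨_, G.tgt_mem hb, G.rt_congr (i := b.val + 1) hi ?_⟩
    rw [G.rt_next hb, G.rt_next hb, if_pos h, G.rt_tgt hb, if_neg (G.tgt_ne hb)]
  · exact ⟨_, h, G.rt_congr hi.le
      ((G.inv_at b).2.2.1 _ (le_of_lt (G.nb_gt b _ h)))⟩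

lemma lo_mem_of_F {q : Fin (m + 1)} {e : E} (he : e ∈ G.F q) : G.lo e ∈ G.D q := by
  rcases G.mem_F.mp he with ⟨h, -⟩ | ⟨-, h⟩
  · exact G.mem_D.mpr (by simpa [h] using (G.inv_at q).2.1 (G.lo e))
  · exact G.lo_mem_of_hi (G.mem_D.mpr (by simpa [h] using (G.inv_at q).2.1 (G.hi e)))

lemma F_disjoint {p q : Fin (m + 1)} (hp : p ≠ Fin.last m) (hq : q ≠ Fin.last m) (hpq : p ≠ q)
    {e : E} (he : e ∈ G.F p) : e ∉ G.F q := by
  intro he'
  wlog hlt : p < q generalizing p q with H
  · exact H hq hp (Ne.symm hpq) he' he (lt_of_le_of_ne (not_lt.mp hlt) (Ne.symm hpq))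
  have heq : G.rt q.val (G.lo e) = G.rt q.val (G.hi e) := by
    refine G.rt_congr (i := p.val + 1) hlt ?_
    rcases G.mem_F.mp he with ⟨h1, h2⟩ | ⟨h1, h2⟩ <;>
      rw [G.rt_next hp, G.rt_next hp, h1, h2] <;> simp
  rcases G.mem_F.mp he' with ⟨h1, h2⟩ | ⟨h1, h2⟩ <;> rw [h1, h2] at heq
  exacts [G.tgt_ne hq heq.symm, G.tgt_ne hq heq]

open scoped Classical in
/-- Both clusters merged at step `q` meet `B`. -/
def Meets (q : Fin (m + 1)) (B : Finset (Fin (m + 1))) : Prop :=
  (∃ z ∈ B, G.rt q.val z = q) ∧ ∃ z ∈ B, G.rt q.val z = G.tgt q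

open scoped Classical in
lemma meets_aux (B : Finset (Fin (m + 1))) : ∀ i : ℕ, i ≤ m →
    (univ.filter fun q : Fin (m + 1) => q.val < i ∧ G.Meets q B).card
      + (B.image (G.rt i)).card ≤ B.card := by
  intro i
  induction i with
  | zero => simp [card_image_le]
  | succ i ih =>
    intro hi
    set q0 : Fin (m + 1) := ⟨i, by omega⟩ with hq0
    have hq : q0 ≠ Fin.last m := by simp [hq0, Fin.ext_iff]; omega
    have hstep : B.image (G.rt (i + 1)) =
        (B.image (G.rt i)).image fun r => if r = q0 then G.tgt q0 else r := by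
      rw [image_image]
      exact image_congr fun u _ => G.rt_next hq u
    have hfil : (univ.filter fun q : Fin (m + 1) => q.val < i + 1 ∧ G.Meets q B) ⊆
        (if G.Meets q0 B then {q0} else ∅) ∪
          univ.filter fun q : Fin (m + 1) => q.val < i ∧ G.Meets q B := by
      intro q hq'
      obtain ⟨h1, h2⟩ := (mem_filter.mp hq').2
      rcases Nat.lt_succ_iff_lt_or_eq.mp h1 with h | h
      · exact mem_union_right _ (mem_filter.mpr ⟨mem_univ _, h, h2⟩)
      · have : q = q0 := Fin.ext h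
        subst this
        exact mem_union_left _ (by simp [h2])
    have hc := le_trans (card_le_card hfil) (card_union_le _ _)
    have := ih (by omega)
    by_cases hM : G.Meets q0 B
    · rw [if_pos hM, card_singleton] at hc
      have hsub : B.image (G.rt (i + 1)) ⊆ (B.image (G.rt i)).erase q0 := by
        rw [hstep]
        intro r hr
        obtain ⟨r', hr', rfl⟩ := mem_image.mp hr
        obtain ⟨z, hz, hzg⟩ := hM.2
        split_ifs with h
        · exact mem_erase.mpr ⟨G.tgt_ne hq, mem_image.mpr ⟨z, hz, hzg⟩⟩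
        · exact mem_erase.mpr ⟨h, hr'⟩
      have hmem : q0 ∈ B.image (G.rt i) := by
        obtain ⟨z, hz, hzq⟩ := hM.1
        exact mem_image.mpr ⟨z, hz, hzq⟩
      have h1 := card_le_card hsub
      rw [card_erase_of_mem hmem] at h1
      have h2 := card_pos.mpr ⟨q0, hmem⟩
      omega
    · rw [if_neg hM, card_empty] at hc
      have h1 : (B.image (G.rt (i + 1))).card ≤ (B.image (G.rt i)).card := by
        rw [hstep]
        exact card_image_le
      omega

open scoped Classical in
lemma meets_card (B : Finset (Fin (m + 1))) :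
    (univ.filter fun q : Fin (m + 1) => q ≠ Fin.last m ∧ G.Meets q B).card ≤ B.card := by
  refine le_trans ?_ (Nat.le_trans (Nat.le_add_right _ _) (G.meets_aux B m le_rfl))
  refine card_le_card fun q hq => ?_
  obtain ⟨h1, h2⟩ := (mem_filter.mp hq).2
  exact mem_filter.mpr ⟨mem_univ _, lt_m h1, h2⟩

end Sys

end Vale.Agent.P061.TW
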