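import Vale.Agent.P061.TW.Chain

/-!
A system of good edges, one for each merge, crosses every cut few times.
-/

namespace Vale.Agent.P061.TW

open Finset

namespace Sys

variable {m : ℕ} {E : Type} [Fintype E] [DecidableEq E] {w k : ℕ} (G : Sys m E w k)

/-- The endpoint of an edge between the two clusters merged at `q` which is on side `s`. -/
noncomputable def xend (q : Fin (m + 1)) (s : Bool) (e : E) : Fin (m + 1) :=
  if G.rt q.val (G.lo e) = q then (bif s then G.lo e else G.hi e)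
  else (bif s then G.hi e else G.lo e)

/-- The two clusters merged at `q`. -/
noncomputable def side (q : Fin (m + 1)) (s : Bool) : Finset (Fin (m + 1)) :=
  univ.filter fun u => G.rt q.val u = bif s then q else G.tgt q

omit [DecidableEq E] in
lemma xend_spec {q : Fin (m + 1)} (hq : q ≠ Fin.last m) : ∀ e ∈ G.F q, ∀ s,
    G.xend q s e ∈ G.side q s ∧ ((G.xend q s e = G.lo e ∧ G.xend q (!s) e = G.hi e) ∨
      (G.xend q s e = G.hi e ∧ G.xend q (!s) e = G.lo e)) := by
  intro e he s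
  rcases G.mem_F.mp he with ⟨h1, h2⟩ | ⟨h1, h2⟩
  · cases s <;> simp [xend, side, h1, h2]
  · cases s <;> simp [xend, side, h1, h2, G.tgt_ne hq]

/-- `e` chooses a good edge for every merge. -/
def GoodChoice (e : Fin (m + 1) → E) : Prop :=
  ∀ q, q ≠ Fin.last m → e q ∈ G.F q ∧ ¬ G.Excuse q (G.F q) (G.xend q) (G.side q) (e q)

lemma exists_goodChoice [Nonempty E] : ∃ e, G.GoodChoice e := by
  have h : ∀ q : Fin (m + 1), q ≠ Fin.last m →
      ∃ e ∈ G.F q, ¬ G.Excuse q (G.F q) (G.xend q) (G.side q) e :=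
    fun q hq => G.exists_good hq _ _ _ (G.xend_spec hq) (G.k_le_F hq)
  choose! e he1 he2 using h
  exact ⟨e, fun q hq => ⟨he1 q hq, he2 q hq⟩⟩

/-- The class with root `r`, after `i` merges, meets both `S` and its complement. -/
def Split (S : Finset (Fin (m + 1))) (i : ℕ) (r : Fin (m + 1)) : Prop :=
  (∃ u, G.rt i u = r ∧ u ∈ S) ∧ ∃ u, G.rt i u = r ∧ u ∉ S

/-- One of the two clusters merged at `q` is on one side of the cut. -/
def MonoSide (S : Finset (Fin (m + 1))) (q : Fin (m + 1)) : Prop :=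
  ¬ G.Split S q.val q ∨ ¬ G.Split S q.val (G.tgt q)

omit [DecidableEq E] in
open scoped Classical in
lemma split_step {S : Finset (Fin (m + 1))} {q : Fin (m + 1)} (hq : q ≠ Fin.last m) :
    (univ.filter fun r => G.Split S (q.val + 1) r) ⊆
      insert (G.tgt q) ((univ.filter fun r => G.Split S q.val r).erase q) := by
  intro r hr
  rw [mem_filter] at hr
  by_cases hrg : r = G.tgt q
  · exact hrg ▸ mem_insert_self _ _
  obtain ⟨⟨u, hu, hu'⟩, ⟨v, hv, hv'⟩⟩ := hr.2
  rw [G.rt_next hq] at hu hv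
  split_ifs at hu with h1
  · exact absurd hu.symm hrg
  split_ifs at hv with h2
  · exact absurd hv.symm hrg
  refine mem_insert_of_mem (mem_erase.mpr ⟨fun h => h1 (hu.trans h), ?_⟩)
  exact mem_filter.mpr ⟨mem_univ _, ⟨u, hu, hu'⟩, ⟨v, hv, hv'⟩⟩

omit [DecidableEq E] in
lemma not_split_next {S : Finset (Fin (m + 1))} {q : Fin (m + 1)} (hq : q ≠ Fin.last m) {e : E}
    (he : e ∈ G.F q) (hc : e ∉ G.cut S) (h1 : ¬ G.Split S q.val q)
    (h2 : ¬ G.Split S q.val (G.tgt q)) : ¬ G.Split S (q.val + 1) (G.tgt q) := by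
  rintro ⟨⟨u, hu, hu'⟩, ⟨v, hv, hv'⟩⟩
  obtain ⟨hx, hxy⟩ := G.xend_spec hq e he true
  obtain ⟨hy, -⟩ := G.xend_spec hq e he false
  simp only [side, mem_filter, mem_univ, true_and, cond_true, cond_false] at hx hy
  rw [Bool.not_true] at hxy
  rw [G.cut_iff hxy, not_not] at hc
  have key : ∀ z, G.rt (q.val + 1) z = G.tgt q → (z ∈ S ↔ G.xend q true e ∈ S) := by
    intro z hz
    rw [G.rt_next hq] at hz
    split_ifs at hz with h
    · constructor <;> intro hh <;> by_contra hn
      · exact h1 ⟨⟨z, h, hh⟩, ⟨_, hx, hn⟩⟩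
      · exact h1 ⟨⟨_, hx, hh⟩, ⟨z, h, hn⟩⟩
    · rw [hc]
      constructor <;> intro hh <;> by_contra hn
      · exact h2 ⟨⟨z, hz, hh⟩, ⟨_, hy, hn⟩⟩
      · exact h2 ⟨⟨_, hy, hh⟩, ⟨z, hz, hn⟩⟩
  exact hv' ((key v hv).mpr ((key u hu).mp hu'))

open scoped Classical in
lemma split_aux {e : Fin (m + 1) → E} (he : G.GoodChoice e) (S : Finset (Fin (m + 1))) :
    ∀ i : ℕ, i ≤ m → (univ.filter fun r => G.Split S i r).card +
      (univ.filter fun q : Fin (m + 1) =>
        q.val < i ∧ e q ∈ G.cut S ∧ ¬ G.MonoSide S q).card ≤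
      (univ.filter fun q : Fin (m + 1) => q.val < i ∧ e q ∈ G.cut S ∧ G.MonoSide S q).card := by
  intro i
  induction i with
  | zero =>
    intro _
    rw [filter_false_of_mem fun r _ => ?_, filter_false_of_mem fun q _ => by simp]
    · simp
    · rintro ⟨⟨u, hu, hu'⟩, ⟨v, hv, hv'⟩⟩
      rw [rt_zero] at hu hv
      exact hv' (hv ▸ hu ▸ hu')
  | succ i ih =>
    intro hi
    set q0 : Fin (m + 1) := ⟨i, by omega⟩ with hq0
    have hq : q0 ≠ Fin.last m := by simp [hq0, Fin.ext_iff]; omega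
    have hfil : ∀ (p : Fin (m + 1) → Prop) [DecidablePred p], (univ.filter fun q : Fin (m + 1) => q.val < i + 1 ∧ p q)
        = if p q0 then insert q0 (univ.filter fun q : Fin (m + 1) => q.val < i ∧ p q)
          else univ.filter fun q : Fin (m + 1) => q.val < i ∧ p q := by
      intro p _
      ext q
      have : q = q0 ↔ q.val = i := by simp [hq0, Fin.ext_iff]
      split_ifs with hp <;> simp only [mem_filter, mem_univ, true_and, mem_insert]
      · constructor
        · rintro ⟨h1, h2⟩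
          rcases Nat.lt_succ_iff_lt_or_eq.mp h1 with h | h
          · exact Or.inr ⟨h, h2⟩
          · exact Or.inl (this.mpr h)
        · rintro (h | ⟨h1, h2⟩)
          · exact ⟨by have := this.mp h; omega, h ▸ hp⟩
          · exact ⟨by omega, h2⟩
      · constructor
        · rintro ⟨h1, h2⟩
          rcases Nat.lt_succ_iff_lt_or_eq.mp h1 with h | h
          · exact ⟨h, h2⟩
          · exact absurd (this.mpr h ▸ h2) hp
        · exact fun h => ⟨by omega, h.2⟩
    have hout : ∀ (p : Fin (m + 1) → Prop) [DecidablePred p],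
        q0 ∉ univ.filter fun q : Fin (m + 1) => q.val < i ∧ p q := by simp [hq0]
    set A := univ.filter fun r => G.Split S i r with hA
    have hsub : (univ.filter fun r => G.Split S (i + 1) r) ⊆ insert (G.tgt q0) (A.erase q0) :=
      G.split_step hq
    have hcard := le_trans (card_le_card hsub) (card_insert_le _ _)
    have h0 := ih (by omega)
    have hf1 := hfil (fun q => e q ∈ G.cut S ∧ ¬ G.MonoSide S q)
    have hf2 := hfil (fun q => e q ∈ G.cut S ∧ G.MonoSide S q)
    have ho1 := hout (fun q => e q ∈ G.cut S ∧ ¬ G.MonoSide S q)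
    have ho2 := hout (fun q => e q ∈ G.cut S ∧ G.MonoSide S q)
    rw [hf1, hf2]
    by_cases hc : e q0 ∈ G.cut S
    · by_cases hM : G.MonoSide S q0
      · rw [if_neg (fun h => h.2 hM), if_pos ⟨hc, hM⟩, card_insert_of_notMem ho2]
        have := card_le_card (erase_subset q0 A)
        omega
      · rw [if_pos ⟨hc, hM⟩, if_neg (fun h => hM h.2), card_insert_of_notMem ho1]
        simp only [MonoSide, not_or, not_not] at hM
        have hg : G.tgt q0 ∈ A.erase q0 :=
          mem_erase.mpr ⟨G.tgt_ne hq, mem_filter.mpr ⟨mem_univ _, hM.2⟩⟩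
        have hq' : q0 ∈ A := mem_filter.mpr ⟨mem_univ _, hM.1⟩
        rw [insert_eq_of_mem hg] at hsub
        have h1 := card_le_card hsub
        rw [card_erase_of_mem hq'] at h1
        have h2 := card_pos.mpr ⟨q0, hq'⟩
        omega
    · rw [if_neg (fun h => hc h.1), if_neg (fun h => hc h.1)]
      by_cases hqA : q0 ∈ A
      · rw [card_erase_of_mem hqA] at hcard
        have h2 := card_pos.mpr ⟨q0, hqA⟩
        omega
      · by_cases hgA : G.tgt q0 ∈ A
        · rw [erase_eq_of_notMem hqA, insert_eq_of_mem hgA] at hsub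
          have := card_le_card hsub
          omega
        · have hn : ¬ G.Split S (i + 1) (G.tgt q0) := G.not_split_next hq (he q0 hq).1 hc
            (fun h => hqA (mem_filter.mpr ⟨mem_univ _, h⟩))
            (fun h => hgA (mem_filter.mpr ⟨mem_univ _, h⟩))
          have : (univ.filter fun r => G.Split S (i + 1) r) ⊆ A := by
            intro r hr
            rcases mem_insert.mp (hsub hr) with rfl | h
            · exact absurd (mem_filter.mp hr).2 hn
            · exact mem_of_mem_erase h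
          have := card_le_card this
          omega

/-- The highest vertex of `M` below `q`, if any. -/
noncomputable def topIn (M : Finset (Fin (m + 1))) (q : Fin (m + 1)) : Option (Fin (m + 1)) :=
  if h : (M ∩ G.D q).Nonempty then some ((M ∩ G.D q).max' h) else none

omit [DecidableEq E] in
lemma topIn_some {M : Finset (Fin (m + 1))} {q b : Fin (m + 1)} (h : G.topIn M q = some b) :
    b ∈ M ∧ b ∈ G.D q ∧ ∀ x ∈ M, x ∈ G.D q → x ≤ b := by
  unfold topIn at h
  split_ifs at h with hne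
  cases h
  refine ⟨(mem_inter.mp (max'_mem _ hne)).1, (mem_inter.mp (max'_mem _ hne)).2, ?_⟩
  exact fun x hx hxq => le_max' _ x (mem_inter.mpr ⟨hx, hxq⟩)

omit [DecidableEq E] in
lemma topIn_none {M : Finset (Fin (m + 1))} {q : Fin (m + 1)} (h : G.topIn M q = none) :
    ∀ x ∈ M, x ∉ G.D q := by
  unfold topIn at h
  split_ifs at h with hne
  exact fun x hx hxq => hne ⟨x, mem_inter.mpr ⟨hx, hxq⟩⟩

open scoped Classical in
lemma mono_hit {e : Fin (m + 1) → E} (he : G.GoodChoice e) {S M0 M : Finset (Fin (m + 1))}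
    (hsub : M0 ⊆ M)
    (hlight : ∀ q ∉ M0, ((G.cut S).filter fun e =>
      G.lo e ∈ G.D q ∧ ∀ x ∈ M0, x < q → G.lo e ∉ G.D x).card * cB w < k)
    (hclos : ∀ q, ∀ b ∈ M, b ∈ G.D q → (∀ x ∈ M, x ∈ G.D q → x ≤ b) →
      ∀ x ∈ M0, x ∈ G.D q → x ∈ G.D b)
    {q : Fin (m + 1)} (hq : q ≠ Fin.last m) (hcut : e q ∈ G.cut S) (hmono : G.MonoSide S q)
    (hunpaid : (G.F q ∩ G.cut S).card * cA w < k) (hqM : q ∉ M) :
    ∃ b ∈ M, G.Meets q (G.nb b) ∨ G.Hit e b q := by
  obtain ⟨heF, hgood⟩ := he q hq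
  have hbelow : G.Below (G.topIn M q) q := by
    intro x hx
    obtain ⟨h1, h2, -⟩ := G.topIn_some hx
    exact ⟨h2, fun h => hqM (h ▸ h1)⟩
  have hlightseg : (G.seg q (G.topIn M q) ∩ G.cut S).card * cB w < k := by
    refine lt_of_le_of_lt (Nat.mul_le_mul_right _ (card_le_card fun f hf => ?_))
      (hlight q fun h => hqM (hsub h))
    obtain ⟨h1, h2⟩ := mem_inter.mp hf
    obtain ⟨h3, h4⟩ := G.mem_seg.mp h1
    refine mem_filter.mpr ⟨h2, h3, fun x hx hxq hfx => h4 ?_⟩
    have hxD : x ∈ G.D q :=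
      G.mem_D.mpr (G.desc_of_le (G.mem_D.mp hfx) (G.mem_D.mp h3) hxq.le)
    cases hb : G.topIn M q with
    | none => exact absurd hxD (G.topIn_none hb x (hsub hx))
    | some b =>
      obtain ⟨g1, g2, g3⟩ := G.topIn_some hb
      exact G.D_mono (G.mem_D.mp (hclos q b g1 g2 g3 x hx hxD)) hfx
  by_cases hlo : G.lo (e q) ∈ G.Db (G.topIn M q)
  · cases hb : G.topIn M q with
    | none => simp [hb, Db] at hlo
    | some b =>
      rw [hb] at hlo
      obtain ⟨g1, g2, -⟩ := G.topIn_some hb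
      refine ⟨b, g1, Or.inl (G.meets_window heF ?_ hlo)⟩
      exact lt_of_le_of_ne (G.desc_le (G.mem_D.mp g2)) fun h => hqM (h ▸ g1)
  obtain ⟨s, hs⟩ : ∃ s : Bool, ¬ G.Split S q.val (bif s then q else G.tgt q) :=
    hmono.elim (fun h => ⟨true, h⟩) (fun h => ⟨false, h⟩)
  obtain ⟨hx, hxy⟩ := G.xend_spec hq (e q) heF s
  obtain ⟨S', hS', hxS'⟩ : ∃ S' : Finset (Fin (m + 1)),
      (S' = S ∨ S' = Sᶜ) ∧ G.xend q s (e q) ∉ S' := by
    by_cases h : G.xend q s (e q) ∈ S
    · exact ⟨Sᶜ, Or.inr rfl, by simpa using h⟩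
    · exact ⟨S, Or.inl rfl, h⟩
  have hcut' : G.cut S' = G.cut S := by
    rcases hS' with rfl | rfl
    · rfl
    · exact G.cut_compl S
  have hC : ∀ x ∈ G.side q s, x ∉ S' := by
    intro z hz hzS
    simp only [side, mem_filter, mem_univ, true_and] at hz hx
    rcases hS' with rfl | rfl
    · exact hs ⟨⟨z, hz, hzS⟩, ⟨_, hx, hxS'⟩⟩
    · exact hs ⟨⟨_, hx, by simpa using hxS'⟩, ⟨z, hz, by simpa using hzS⟩⟩
  have hlseg : e q ∈ G.seg q (G.topIn M q) := G.mem_seg.mpr ⟨G.lo_mem_of_F heF, hlo⟩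
  have hy : G.xend q (!s) (e q) ∈ S' := by
    rw [← hcut', G.cut_iff hxy] at hcut
    tauto
  have hd : ∃ d ⊆ G.D q \ G.Db (G.topIn M q), G.xend q (!s) (e q) ∈ d ∧
      (G.seg q (G.topIn M q) ∩ G.cut d).card * cB w < 4 * k := by
    by_contra hcon
    push Not at hcon
    refine hgood ⟨G.topIn M q, S', s, hbelow, hlseg, hxS', hy, fun z hz _ _ => hC z hz,
      ?_, by rw [hcut']; exact hlightseg, hcon⟩
    rw [hcut']
    refine lt_of_le_of_lt (Nat.mul_le_mul_right _ (card_le_card ?_)) hunpaid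
    exact fun f hf => mem_inter.mpr ⟨(mem_inter.mp hf).1, (mem_inter.mp (mem_inter.mp hf).2).2⟩
  obtain ⟨d, hdsub, hyd, hdcut⟩ := hd
  cases hb : G.topIn M q with
  | none =>
    exfalso
    rw [hb] at hdsub hdcut
    have hdq : d ⊆ G.D q := fun z hz => (mem_sdiff.mp (hdsub hz)).1
    have h1 := G.k_le_cut ⟨_, hyd⟩ (G.last_notMem_of_subset hq hdq)
    have h2 : G.cut d ⊆ G.seg q none ∩ G.cut d := fun f hf =>
      mem_inter.mpr ⟨G.mem_seg.mpr ⟨G.lo_mem_of_cut hdq hf, by simp [Db]⟩, hf⟩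
    have h3 := Nat.mul_le_mul_right (cB w) (le_trans h1 (card_le_card h2))
    have h4 : k * 4 ≤ k * cB w := Nat.mul_le_mul_left k (by unfold cB; omega)
    omega
  | some b =>
    obtain ⟨g1, g2, -⟩ := G.topIn_some hb
    rw [hb] at hdsub hdcut hlo
    refine ⟨b, g1, Or.inr ⟨hq, G.mem_D.mp g2, fun h => hqM (h ▸ g1), heF, hlo,
      d, hdsub, ?_, hdcut⟩⟩
    rcases hxy with ⟨-, h⟩ | ⟨-, h⟩
    · exact Or.inr (h ▸ hyd)
    · exact Or.inl (h ▸ hyd)

open scoped Classical in
/-- The chosen edges cross every cut at most `(2 cA + 4 cB (w+1)^2)/k` times its size. -/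
theorem crossing_bound {e : Fin (m + 1) → E} (he : G.GoodChoice e) (S : Finset (Fin (m + 1))) :
    k * (univ.filter fun q => q ≠ Fin.last m ∧ e q ∈ G.cut S).card ≤
      (2 * cA w + 4 * cB w * ((w + 1) * (w + 1))) * (G.cut S).card := by
  obtain ⟨M0, hM0, hlight⟩ := G.exists_light S
  obtain ⟨M, hsub, hM, hclos⟩ := G.exists_closure M0
  set Mono := univ.filter fun q : Fin (m + 1) =>
    q.val < m ∧ e q ∈ G.cut S ∧ G.MonoSide S q with hMono
  set All := univ.filter fun q => q ≠ Fin.last m ∧ e q ∈ G.cut S with hAll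
  have hall : All.card ≤ 2 * Mono.card := by
    have h1 : All ⊆ (univ.filter fun q : Fin (m + 1) =>
        q.val < m ∧ e q ∈ G.cut S ∧ ¬ G.MonoSide S q) ∪ Mono := by
      intro q hq
      obtain ⟨h1, h2⟩ := (mem_filter.mp hq).2
      by_cases h : G.MonoSide S q
      · exact mem_union_right _ (mem_filter.mpr ⟨mem_univ _, lt_m h1, h2, h⟩)
      · exact mem_union_left _ (mem_filter.mpr ⟨mem_univ _, lt_m h1, h2, h⟩)
    have h2 := le_trans (card_le_card h1) (card_union_le _ _)
    have h3 := G.split_aux he S m le_rfl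
    rw [hMono] at h2 ⊢
    omega
  set Paid := univ.filter fun q : Fin (m + 1) =>
    q ≠ Fin.last m ∧ k ≤ (G.F q ∩ G.cut S).card * cA w with hPaid
  set HB : Fin (m + 1) → Finset (Fin (m + 1)) := fun b =>
    (univ.filter fun q => q ≠ Fin.last m ∧ G.Meets q (G.nb b)) ∪
      univ.filter fun q => G.Hit e b q with hHB
  have hMonoSub : Mono ⊆ Paid ∪ M ∪ M.biUnion HB := by
    intro q hq
    obtain ⟨h1, h2, h3⟩ := (mem_filter.mp hq).2
    have hq' : q ≠ Fin.last m := by
      intro h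
      simp [h] at h1
    by_cases hp : k ≤ (G.F q ∩ G.cut S).card * cA w
    · exact mem_union_left _ (mem_union_left _ (mem_filter.mpr ⟨mem_univ _, hq', hp⟩))
    by_cases hqM : q ∈ M
    · exact mem_union_left _ (mem_union_right _ hqM)
    obtain ⟨b, hb, h⟩ := G.mono_hit he hsub hlight hclos hq' h2 h3 (by omega) hqM
    refine mem_union_right _ (mem_biUnion.mpr ⟨b, hb, ?_⟩)
    rcases h with h | h
    · exact mem_union_left _ (mem_filter.mpr ⟨mem_univ _, hq', h⟩)
    · exact mem_union_right _ (mem_filter.mpr ⟨mem_univ _, h⟩)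
  have hHBc : ∀ b ∈ M, (HB b).card ≤ w + w * (w + 1) := fun b _ =>
    le_trans (card_union_le _ _) (Nat.add_le_add (le_trans (G.meets_card _) (G.nb_card b))
      (G.chain_bound e b _ fun q hq => (mem_filter.mp hq).2))
  have hb : (M.biUnion HB).card ≤ M.card * (w + w * (w + 1)) :=
    card_biUnion_le_card_mul _ _ _ hHBc
  have hpaid : k * Paid.card ≤ cA w * (G.cut S).card := by
    have h1 : (Paid.biUnion fun q => G.F q ∩ G.cut S).card =
        ∑ q ∈ Paid, (G.F q ∩ G.cut S).card := by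
      refine card_biUnion fun p hp q hq hpq => ?_
      rw [Function.onFun, disjoint_left]
      intro f hf hf'
      exact G.F_disjoint (mem_filter.mp hp).2.1 (mem_filter.mp hq).2.1 hpq
        (mem_inter.mp hf).1 (mem_inter.mp hf').1
    have h2 : (Paid.biUnion fun q => G.F q ∩ G.cut S) ⊆ G.cut S := by
      intro f hf
      obtain ⟨q, -, hf⟩ := mem_biUnion.mp hf
      exact (mem_inter.mp hf).2
    calc k * Paid.card = ∑ _q ∈ Paid, k := by rw [sum_const_nat (fun _ _ => rfl), Nat.mul_comm]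
      _ ≤ ∑ q ∈ Paid, (G.F q ∩ G.cut S).card * cA w :=
        sum_le_sum fun q hq => (mem_filter.mp hq).2.2
      _ = (∑ q ∈ Paid, (G.F q ∩ G.cut S).card) * cA w := (sum_mul _ _ _).symm
      _ ≤ (G.cut S).card * cA w := Nat.mul_le_mul_right _ (h1 ▸ card_le_card h2)
      _ = _ := Nat.mul_comm _ _
  have hMc : k * M.card ≤ 2 * (cB w * (G.cut S).card) := by
    have := Nat.mul_le_mul_left k hM
    rw [Nat.mul_left_comm k 2] at this
    omega
  have hmono : Mono.card ≤ Paid.card + M.card * ((w + 1) * (w + 1)) := by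
    have h1 := le_trans (card_le_card hMonoSub) (card_union_le _ _)
    have h2 := card_union_le Paid M
    have h3 : M.card * ((w + 1) * (w + 1)) = M.card + M.card * (w + w * (w + 1)) := by ring
    omega
  calc k * All.card ≤ k * (2 * (Paid.card + M.card * ((w + 1) * (w + 1)))) :=
        Nat.mul_le_mul_left k (le_trans hall (Nat.mul_le_mul_left 2 hmono))
    _ = 2 * (k * Paid.card) + 2 * (k * M.card) * ((w + 1) * (w + 1)) := by ring
    _ ≤ 2 * (cA w * (G.cut S).card) +
        2 * (2 * (cB w * (G.cut S).card)) * ((w + 1) * (w + 1)) :=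
      Nat.add_le_add (Nat.mul_le_mul_left 2 hpaid)
        (Nat.mul_le_mul_right _ (Nat.mul_le_mul_left 2 hMc))
    _ = _ := by ring

end Sys

end Vale.Agent.P061.TW
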