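import Vale.Agent.P061.TW.Basic
import Mathlib.Combinatorics.SimpleGraph.Acyclic
import Mathlib.Data.Fin.Tuple.Sort
import Mathlib.Data.Fintype.EquivFin
import Mathlib.Data.Sym.Sym2

/-!
From a tree decomposition of width `w` to an elimination order.
-/

namespace Vale.Agent.P061.TW

open Finset

section Rooted

variable {ι : Type} {H : SimpleGraph ι} (hT : H.IsTree) (r : ι)

/-- The path of a node to the root. -/
noncomputable def rootPath (a : ι) : H.Walk a r := (hT.existsUnique_path a r).choose

/-- The depth of a node. -/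
noncomputable def depth (a : ι) : ℕ := (rootPath hT r a).length

lemma rootPath_isPath (a : ι) : (rootPath hT r a).IsPath :=
  (hT.existsUnique_path a r).choose_spec.1

lemma rootPath_unique {a : ι} {p : H.Walk a r} (hp : p.IsPath) : p = rootPath hT r a :=
  (hT.existsUnique_path a r).unique hp (rootPath_isPath hT r a)

lemma rootPath_adj {a b : ι} (h : H.Adj a b) :
    rootPath hT r a = SimpleGraph.Walk.cons h (rootPath hT r b) ∨
      rootPath hT r b = SimpleGraph.Walk.cons h.symm (rootPath hT r a) := by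
  classical
  by_cases hb : b ∈ (rootPath hT r a).support
  · left
    have hp := rootPath_isPath hT r a
    have h1 : (rootPath hT r a).dropUntil b hb = rootPath hT r b :=
      rootPath_unique hT r (hp.dropUntil hb)
    have h3 : (SimpleGraph.Walk.cons h SimpleGraph.Walk.nil : H.Walk a b).IsPath := by
      simp [h.ne]
    have h2 : (rootPath hT r a).takeUntil b hb = SimpleGraph.Walk.cons h SimpleGraph.Walk.nil :=
      (hT.existsUnique_path a b).unique (hp.takeUntil hb) h3
    have h4 := (rootPath hT r a).take_spec hb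
    rw [h1, h2] at h4
    simpa using h4.symm
  · right
    exact (rootPath_unique hT r ((rootPath_isPath hT r a).cons hb)).symm

lemma depth_of_mem {s a : ι} (h : s ∈ (rootPath hT r a).support) (hne : a ≠ s) :
    depth hT r s < depth hT r a := by
  classical
  have h1 : (rootPath hT r a).dropUntil s h = rootPath hT r s :=
    rootPath_unique hT r ((rootPath_isPath hT r a).dropUntil h)
  have h2 := congrArg SimpleGraph.Walk.length ((rootPath hT r a).take_spec h)
  rw [SimpleGraph.Walk.length_append, h1] at h2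
  have h3 : ((rootPath hT r a).takeUntil s h).length ≠ 0 := fun h0 =>
    hne (SimpleGraph.Walk.eq_of_length_eq_zero h0)
  unfold depth
  omega

lemma exists_up {X : Set ι} (hX : (H.induce X).Connected) {s t : ι} (hs : s ∈ X) (ht : t ∈ X)
    (hne : t ≠ s) (hd : depth hT r t ≤ depth hT r s) :
    ∃ b ∈ X, depth hT r s = depth hT r b + 1 ∧ (rootPath hT r s).getVert 1 = b := by
  by_contra hcon
  have key : ∀ (x y : X) (p : (H.induce X).Walk x y),
      s ∈ (rootPath hT r x.1).support → s ∈ (rootPath hT r y.1).support := by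
    intro x y p
    induction p with
    | nil => exact id
    | @cons x z y hxz p ih =>
      intro hx
      refine ih ?_
      have hadj : H.Adj x.1 z.1 := hxz
      rcases rootPath_adj hT r hadj with h | h
      · rw [h, SimpleGraph.Walk.support_cons, List.mem_cons] at hx
        rcases hx with hx | hx
        · subst hx
          refine absurd ⟨z.1, z.2, ?_, ?_⟩ hcon
          · unfold depth
            rw [h, SimpleGraph.Walk.length_cons]
          · rw [h]
            simp
        · exact hx
      · rw [h, SimpleGraph.Walk.support_cons]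
        exact List.mem_cons_of_mem _ hx
  obtain ⟨p⟩ := hX.preconnected ⟨s, hs⟩ ⟨t, ht⟩
  have := key _ _ p (SimpleGraph.Walk.start_mem_support _)
  exact absurd (depth_of_mem hT r this hne) (not_lt.mpr hd)

lemma top_bag {Xu Xv : Set ι} (hu : (H.induce Xu).Connected) (hv : (H.induce Xv).Connected)
    {tu tv : ι} (htu : tu ∈ Xu) (htv : tv ∈ Xv) (humin : ∀ x ∈ Xu, depth hT r tu ≤ depth hT r x)
    (hle : depth hT r tv ≤ depth hT r tu) :
    ∀ (n : ℕ) (s : ι), depth hT r s = n → s ∈ Xu → s ∈ Xv → tu ∈ Xv := by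
  intro n
  induction n with
  | zero =>
    intro s hs h1 h2
    by_cases h : tu = s
    · exact h ▸ h2
    obtain ⟨b, -, hb, -⟩ := exists_up hT r hu h1 htu h (humin s h1)
    omega
  | succ n ih =>
    intro s hs h1 h2
    by_cases h : tu = s
    · exact h ▸ h2
    obtain ⟨b, hb, hbd, hbg⟩ := exists_up hT r hu h1 htu h (humin s h1)
    have := humin b hb
    obtain ⟨b', hb', -, hbg'⟩ := exists_up hT r hv h2 htv (fun e => by rw [e] at hle; omega)
      (by omega)
    rw [hbg] at hbg'
    exact ih b (by omega) hb (hbg' ▸ hb')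

end Rooted

theorem exists_sys {V E : Type} [Fintype V] [DecidableEq V] [Fintype E] {w k m : ℕ}
    (hV : Fintype.card V = m + 1) (ends : E → Sym2 V) (hloop : ∀ e, ¬ (ends e).IsDiag)
    {ι : Type} [Fintype ι] {H : SimpleGraph ι} (hT : H.IsTree) (bag : ι → Finset V)
    (hbag : ∀ i, (bag i).card ≤ w + 1) (hconn : ∀ v, (H.induce {i | v ∈ bag i}).Connected)
    (hedge : ∀ e, ∃ i, ∀ v ∈ ends e, v ∈ bag i) (hk : 1 ≤ k)
    (hcut : ∀ S : Finset V, S.Nonempty → S ≠ univ →
      k ≤ Nat.card {e // ∃ a ∈ S, ∃ b, b ∉ S ∧ ends e = s(a, b)}) :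
    ∃ (φ : Fin (m + 1) ≃ V) (G : Sys m E w k),
      ∀ e, ends e = s(φ (G.lo e), φ (G.hi e)) := by
  classical
  have hr : Nonempty ι := hT.connected.nonempty
  obtain ⟨r⟩ := hr
  have htau : ∀ v, ∃ t, v ∈ bag t ∧ ∀ x, v ∈ bag x → depth hT r t ≤ depth hT r x := by
    intro v
    obtain ⟨i, hi⟩ := (hconn v).nonempty
    obtain ⟨t, ht, hmin⟩ := (univ.filter fun x => v ∈ bag x).exists_min_image (depth hT r)
      ⟨i, mem_filter.mpr ⟨mem_univ _, hi⟩⟩
    exact ⟨t, (mem_filter.mp ht).2, fun x hx => hmin x (mem_filter.mpr ⟨mem_univ _, hx⟩)⟩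
  choose τ hτ hmin using htau
  set ψ : Fin (m + 1) ≃ V := (Fintype.equivFinOfCardEq hV).symm with hψ
  set key : Fin (m + 1) → ℤ := fun i => -(depth hT r (τ (ψ i)) : ℤ) with hkey
  set φ : Fin (m + 1) ≃ V := (Tuple.sort key).trans ψ with hφ
  have mono : ∀ i j, i ≤ j → depth hT r (τ (φ j)) ≤ depth hT r (τ (φ i)) := by
    intro i j hij
    have := Tuple.monotone_sort key hij
    simp only [Function.comp_apply] at this
    simp only [hφ, Equiv.trans_apply]
    change -((depth hT r (τ (ψ (Tuple.sort key i))) : ℤ)) ≤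
      -((depth hT r (τ (ψ (Tuple.sort key j))) : ℤ)) at this
    omega
  have main : ∀ i j s, i < j → φ i ∈ bag s → φ j ∈ bag s → φ j ∈ bag (τ (φ i)) := by
    intro i j s hij hi hj
    exact top_bag hT r (hconn (φ i)) (hconn (φ j)) (hτ _) (hτ _) (fun x hx => hmin _ x hx)
      (mono i j hij.le) _ s rfl hi hj
  have hpair : ∀ e, ∃ p : Fin (m + 1) × Fin (m + 1), p.1 < p.2 ∧ ends e = s(φ p.1, φ p.2) := by
    intro e
    have hl := hloop e
    revert hl
    induction ends e using Sym2.ind with
    | _ a b =>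
      intro hl
      rw [Sym2.mk_isDiag_iff] at hl
      rcases lt_or_gt_of_ne (fun h => hl (φ.symm.injective h)) with h | h
      · exact ⟨(φ.symm a, φ.symm b), h, by simp⟩
      · exact ⟨(φ.symm b, φ.symm a), h, by simp [Sym2.eq_swap]⟩
  choose pr hlt hends using hpair
  refine ⟨φ, {
    nb := fun i => univ.filter fun j => i < j ∧ φ j ∈ bag (τ (φ i))
    lo := fun e => (pr e).1
    hi := fun e => (pr e).2
    nb_gt := fun u v hv => (mem_filter.mp hv).2.1
    nb_card := ?_
    nb_clique := ?_
    hi_mem := ?_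
    k_pos := hk
    conn := ?_ }, hends⟩
  · intro u
    have h1 : ((univ.filter fun j => u < j ∧ φ j ∈ bag (τ (φ u))).map φ.toEmbedding) ⊆
        (bag (τ (φ u))).erase (φ u) := by
      intro x hx
      obtain ⟨j, hj, rfl⟩ := mem_map.mp hx
      obtain ⟨h1, h2⟩ := (mem_filter.mp hj).2
      exact mem_erase.mpr ⟨fun h => h1.ne' (φ.injective h), h2⟩
    have h2 := card_le_card h1
    rw [card_map, card_erase_of_mem (hτ (φ u))] at h2
    have := hbag (τ (φ u))
    omega
  · intro u p hp q hq hpq
    obtain ⟨-, h1⟩ := (mem_filter.mp hp).2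
    obtain ⟨-, h2⟩ := (mem_filter.mp hq).2
    exact mem_filter.mpr ⟨mem_univ _, hpq, main p q _ hpq h1 h2⟩
  · intro e
    obtain ⟨i, hi⟩ := hedge e
    refine mem_filter.mpr ⟨mem_univ _, hlt e, main _ _ i (hlt e) (hi _ ?_) (hi _ ?_)⟩ <;>
      rw [hends e] <;> simp
  · intro S hS hlast
    have hne : S.map φ.toEmbedding ≠ univ := by
      intro h
      have h1 : φ (Fin.last m) ∈ S.map φ.toEmbedding := h ▸ mem_univ _
      exact hlast (by simpa using h1)
    refine le_trans (hcut (S.map φ.toEmbedding) (hS.map) hne) ?_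
    rw [Nat.card_eq_fintype_card, Fintype.card_subtype]
    refine card_le_card fun e he => ?_
    obtain ⟨a, ha, b, hb, hab⟩ := (mem_filter.mp he).2
    obtain ⟨a', ha', rfl⟩ := mem_map.mp ha
    rw [hends e, Sym2.eq_iff] at hab
    simp only [cutOf, mem_filter, mem_univ, true_and]
    simp only [mem_map_equiv] at hb
    rcases hab with ⟨h1, h2⟩ | ⟨h1, h2⟩
    · have e1 : (pr e).1 = a' := φ.injective h1
      subst e1
      rw [← h2, Equiv.symm_apply_apply] at hb
      tauto
    · have e1 : (pr e).2 = a' := φ.injective h2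
      subst e1
      rw [← h1, Equiv.symm_apply_apply] at hb
      tauto

end Vale.Agent.P061.TW
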