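import Mathlib.Algebra.BigOperators.Group.Finset.Basic
import Mathlib.Algebra.Order.BigOperators.Group.Finset
import Mathlib.Data.Finset.Max
import Mathlib.Combinatorics.Pigeonhole
import Mathlib.Algebra.BigOperators.Group.Finset.Piecewise
import Mathlib.Algebra.BigOperators.Ring.Finset
import Mathlib.Data.Fintype.Card
import Mathlib.Tactic.Ring
import Mathlib.Tactic.Linarith

/-!
Two elementary combinatorial tools: monochromatic triangles in coloured ordered sets, and
independent sets in digraphs of small out-degree.
-/

namespace Vale.Agent.P061.TW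

open Finset

/-- An upper bound for the size of a set whose pairs are coloured with `j` colours and which has
no monochromatic triangle. -/
def triBound : ℕ → ℕ
  | 0 => 1
  | j + 1 => (j + 1) * triBound j + 1

lemma exists_triangle {α γ : Type*} [LinearOrder α] [DecidableEq γ] (c : α → α → γ) :
    ∀ (j : ℕ) (K : Finset γ) (I : Finset α), K.card ≤ j →
      (∀ a ∈ I, ∀ b ∈ I, a < b → c a b ∈ K) → triBound j < I.card →
      ∃ a ∈ I, ∃ i ∈ I, ∃ b ∈ I, a < i ∧ i < b ∧ c a i = c a b ∧ c i b = c a b := by
  intro j
  induction j with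
  | zero =>
    intro K I hK hc hI
    simp only [triBound] at hI
    obtain ⟨a, ha, b, hb, hab⟩ := Finset.one_lt_card.mp hI
    rw [Finset.card_eq_zero.mp (Nat.le_zero.mp hK)] at hc
    rcases lt_or_gt_of_ne hab with h | h
    · exact absurd (hc a ha b hb h) (notMem_empty _)
    · exact absurd (hc b hb a ha h) (notMem_empty _)
  | succ j ih =>
    intro K I hK hc hI
    simp only [triBound] at hI
    have hne : I.Nonempty := Finset.card_pos.mp (by omega)
    set a := I.min' hne with ha
    have haI : a ∈ I := I.min'_mem hne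
    set J := I.erase a with hJ
    have hJlt : ∀ x ∈ J, a < x := by
      intro x hx
      obtain ⟨h1, h2⟩ := mem_erase.mp hx
      exact lt_of_le_of_ne (I.min'_le x h2) (Ne.symm h1)
    have hJcard : (j + 1) * triBound j < J.card := by
      rw [hJ, card_erase_of_mem haI]
      omega
    have hmap : ∀ x ∈ J, c a x ∈ K := fun x hx =>
      hc a haI x (mem_of_mem_erase hx) (hJlt x hx)
    obtain ⟨col, hcol, hbig⟩ : ∃ col ∈ K, triBound j < (J.filter fun x => c a x = col).card := by
      refine exists_lt_card_fiber_of_mul_lt_card_of_maps_to hmap ?_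
      calc K.card * triBound j ≤ (j + 1) * triBound j := Nat.mul_le_mul_right _ hK
        _ < _ := hJcard
    set J' := J.filter fun x => c a x = col with hJ'
    by_cases hex : ∃ i ∈ J', ∃ b ∈ J', i < b ∧ c i b = col
    · obtain ⟨i, hi, b, hb, hib, hcib⟩ := hex
      obtain ⟨hiJ, hia⟩ := mem_filter.mp hi
      obtain ⟨hbJ, hba⟩ := mem_filter.mp hb
      exact ⟨a, haI, i, mem_of_mem_erase hiJ, b, mem_of_mem_erase hbJ, hJlt i hiJ, hib,
        hia.trans hba.symm, hcib.trans hba.symm⟩
    · push Not at hex
      have hsub : ∀ x ∈ J', x ∈ I := fun x hx => mem_of_mem_erase (mem_filter.mp hx).1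
      obtain ⟨a', ha', i, hi, b, hb, h⟩ := ih (K.erase col) J'
        (by rw [card_erase_of_mem hcol]; omega)
        (fun x hx y hy hxy => mem_erase.mpr ⟨hex x hx y hy hxy,
          hc x (hsub x hx) y (hsub y hy) hxy⟩) hbig
      exact ⟨a', hsub a' ha', i, hsub i hi, b, hsub b hb, h⟩

lemma exists_indep {α : Type*} [DecidableEq α] (out : α → Finset α) (d : ℕ) :
    ∀ F : Finset α, (∀ a ∈ F, (out a).card ≤ d) →
      ∃ I ⊆ F, F.card ≤ (2 * d + 1) * I.card ∧ ∀ a ∈ I, ∀ i ∈ I, a ≠ i → i ∉ out a := by
  intro F
  induction F using Finset.strongInduction with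
  | _ F ih =>
    intro hd
    rcases F.eq_empty_or_nonempty with rfl | hne
    · exact ⟨∅, Finset.Subset.refl _, by simp, by simp⟩
    obtain ⟨v, hv, hvd⟩ : ∃ v ∈ F, (F.filter fun a => v ∈ out a).card ≤ d := by
      by_contra hcon
      push Not at hcon
      have h1 : ∑ v ∈ F, (F.filter fun a => v ∈ out a).card
          = ∑ a ∈ F, (F.filter fun v => v ∈ out a).card := by
        simp only [card_filter]
        exact sum_comm
      have h2 : ∑ a ∈ F, (F.filter fun v => v ∈ out a).card ≤ ∑ _a ∈ F, d :=
        sum_le_sum fun a ha => le_trans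
          (card_le_card fun x hx => (mem_filter.mp hx).2) (hd a ha)
      have h3 : ∑ _v ∈ F, d < ∑ v ∈ F, (F.filter fun a => v ∈ out a).card :=
        sum_lt_sum_of_nonempty hne hcon
      omega
    set bad := insert v (out v ∪ F.filter fun a => v ∈ out a) with hbad
    have hbcard : bad.card ≤ 2 * d + 1 := by
      refine le_trans (card_insert_le _ _) ?_
      have := card_union_le (out v) (F.filter fun a => v ∈ out a)
      have := hd v hv
      omega
    have hss : F \ bad ⊂ F := by
      refine Finset.ssubset_iff_subset_ne.mpr ⟨sdiff_subset, fun h => ?_⟩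
      have hv' := hv
      rw [← h] at hv'
      exact (mem_sdiff.mp hv').2 (mem_insert_self _ _)
    obtain ⟨I, hIF, hIc, hI⟩ := ih _ hss fun a ha => hd a (mem_sdiff.mp ha).1
    have hvI : v ∉ I := fun h => (mem_sdiff.mp (hIF h)).2 (mem_insert_self _ _)
    refine ⟨insert v I, ?_, ?_, ?_⟩
    · exact insert_subset hv (hIF.trans sdiff_subset)
    · have h1 : F.card ≤ (F \ bad).card + bad.card := by
        have := le_card_sdiff bad F
        omega
      rw [card_insert_of_notMem hvI, Nat.mul_add, Nat.mul_one]
      omega
    · intro a ha i hi hai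
      rcases mem_insert.mp ha with rfl | ha'
      · rcases mem_insert.mp hi with rfl | hi
        · exact absurd rfl hai
        · intro h
          exact (mem_sdiff.mp (hIF hi)).2 (mem_insert_of_mem (mem_union_left _ h))
      · rcases mem_insert.mp hi with rfl | hi'
        · intro h
          exact (mem_sdiff.mp (hIF ha')).2 (mem_insert_of_mem
            (mem_union_right _ (mem_filter.mpr ⟨(mem_sdiff.mp (hIF ha')).1, h⟩)))
        · exact hI a ha' i hi' hai

end Vale.Agent.P061.TW
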