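import Vale.Agent.P061.TW.Basic
import Vale.Agent.P061.TW.Ramsey
import Mathlib.Data.Fintype.Pi
import Mathlib.Data.Fintype.Prod
import Mathlib.Data.Fintype.EquivFin

/-!
The main lemma: among the edges joining two clusters some edge is good for every cut at once.
-/

namespace Vale.Agent.P061.TW

open Finset

/-- Colours of the pairs of witnesses. -/
abbrev Col (w : ℕ) : Type :=
  (Bool × (Fin w → Bool)) × (Bool × (Fin w → Bool)) × (Fin w → Bool) × (Fin w → Bool)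

/-- Inverse of the share of a merge above which a cut pays for the merge. -/
def cA (w : ℕ) : ℕ := 3 * w * (triBound (Fintype.card (Col w)) + 1)

/-- Inverse of the weight, relative to `k`, of a light part of a cut. -/
def cB (w : ℕ) : ℕ := 8 * (w + 2)

namespace Sys

variable {m : ℕ} {E : Type} [Fintype E] {w k : ℕ} (G : Sys m E w k)

open scoped Classical in
/-- The trace of `S` on `M`, as a vector of length `w`. -/
noncomputable def code (M S : Finset (Fin (m + 1))) : Fin w → Bool := fun t =>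
  decide (∃ h : t.val < M.card, ((M.equivFin.symm ⟨t.val, h⟩) : Fin (m + 1)) ∈ S)

lemma code_eq {M S S' : Finset (Fin (m + 1))} (hM : M.card ≤ w)
    (h : code (w := w) M S = code M S') : ∀ x ∈ M, (x ∈ S ↔ x ∈ S') := by
  intro x hx
  set j := M.equivFin ⟨x, hx⟩ with hj
  have h' := congrFun h ⟨j.val, lt_of_lt_of_le j.isLt hM⟩
  simp only [code, decide_eq_decide] at h'
  simpa [hj, j.isLt] using h'

lemma seg_ends {q : Fin (m + 1)} {b : Option (Fin (m + 1))} {e : E} (he : e ∈ G.seg q b)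
    {z : Fin (m + 1)} (hz : z = G.lo e ∨ z = G.hi e) :
    (z ∈ G.D q ∨ z ∈ G.nb q) ∧ z ∉ G.Db b := by
  obtain ⟨h1, h2⟩ := G.mem_seg.mp he
  rcases hz with rfl | rfl
  · exact ⟨Or.inl h1, h2⟩
  · exact ⟨G.hi_of_lo h1, G.hi_notMem_Db h2⟩

lemma cut_iff {e : E} {S : Finset (Fin (m + 1))} {x y : Fin (m + 1)}
    (h : (x = G.lo e ∧ y = G.hi e) ∨ (x = G.hi e ∧ y = G.lo e)) :
    e ∈ G.cut S ↔ ¬(x ∈ S ↔ y ∈ S) := by
  rw [mem_cut]
  rcases h with ⟨rfl, rfl⟩ | ⟨rfl, rfl⟩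
  · exact Iff.rfl
  · exact not_congr ⟨Iff.symm, Iff.symm⟩

variable [DecidableEq E]

/-- A reason for not taking `e` as the tree edge between the two clusters `C`. -/
def Excuse (q : Fin (m + 1)) (F : Finset E) (xe : Bool → E → Fin (m + 1))
    (C : Bool → Finset (Fin (m + 1))) (e : E) : Prop :=
  ∃ (b : Option (Fin (m + 1))) (S : Finset (Fin (m + 1))) (s : Bool),
    G.Below b q ∧ e ∈ G.seg q b ∧ xe s e ∉ S ∧ xe (!s) e ∈ S ∧
    (∀ x ∈ C s, (x ∈ G.D q ∨ x ∈ G.nb q) → x ∉ G.Db b → x ∉ S) ∧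
    (F ∩ (G.seg q b ∩ G.cut S)).card * cA w < k ∧
    (G.seg q b ∩ G.cut S).card * cB w < k ∧
    ∀ d ⊆ G.D q \ G.Db b, xe (!s) e ∈ d → 4 * k ≤ (G.seg q b ∩ G.cut d).card * cB w

omit [Fintype E] in
lemma two_light {A B : Finset E} {X : Finset E} (hX : X ⊆ A ∪ B) (hA : A.card * cB w < k)
    (hB : B.card * cB w < k) : X.card * cB w < 2 * k := by
  have h := Nat.mul_le_mul_right (cB w) (le_trans (card_le_card hX) (card_union_le A B))
  rw [Nat.add_mul] at h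
  omega

lemma nested_false {q : Fin (m + 1)} {ba bi : Option (Fin (m + 1))}
    {Sa Si : Finset (Fin (m + 1))} (hsub : G.Db ba ⊆ G.Db bi)
    (htop : ∀ x ∈ G.nb q, (x ∈ Sa ↔ x ∈ Si))
    (hca : (G.seg q ba ∩ G.cut Sa).card * cB w < k)
    (hci : (G.seg q bi ∩ G.cut Si).card * cB w < k)
    {y : Fin (m + 1)} (hy : y ∈ G.D q ∨ y ∈ G.nb q) (hyb : y ∉ G.Db bi) (hyi : y ∈ Si)
    (hya : y ∉ Sa)
    (hd : ∀ d ⊆ G.D q \ G.Db bi, y ∈ d → 4 * k ≤ (G.seg q bi ∩ G.cut d).card * cB w) :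
    False := by
  set d := (Si \ Sa) ∩ (G.D q \ G.Db bi) with hddef
  have hyd : y ∈ d := by
    rcases hy with hy | hy
    · simp [hddef, hy, hyb, hyi, hya]
    · exact absurd ((htop y hy).mpr hyi) hya
  have hX : G.seg q bi ∩ G.cut d ⊆ (G.seg q bi ∩ G.cut Si) ∪ (G.seg q ba ∩ G.cut Sa) := by
    intro e he
    obtain ⟨hseg, hcut⟩ := mem_inter.mp he
    have ha : e ∈ G.seg q ba :=
      G.mem_seg.mpr ⟨(G.mem_seg.mp hseg).1, fun h => (G.mem_seg.mp hseg).2 (hsub h)⟩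
    have key : ∀ z, z = G.lo e ∨ z = G.hi e → (z ∈ d ↔ z ∈ Si ∧ z ∉ Sa) := by
      intro z hz
      obtain ⟨h1, h2⟩ := G.seg_ends hseg hz
      rcases h1 with h1 | h1
      · simp [hddef, h1, h2]
      · have := htop z h1
        simp [hddef, G.nb_notMem_D h1]
        tauto
    rw [mem_cut, key _ (Or.inl rfl), key _ (Or.inr rfl)] at hcut
    simp only [mem_union, mem_inter, mem_cut, hseg, ha, true_and]
    tauto
  have h1 := two_light hX hci hca
  have h2 := hd d inter_subset_right hyd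
  have := G.k_pos
  omega

lemma agree_below {q : Fin (m + 1)} (hq : q ≠ Fin.last m) {bi bb : Option (Fin (m + 1))}
    {ba : Option (Fin (m + 1))} {Si Sb : Finset (Fin (m + 1))}
    (hsub : G.Db ba ⊆ G.D q)
    (hdi : ∀ x ∈ G.Db ba, x ∉ G.Db bi) (hdb : ∀ x ∈ G.Db ba, x ∉ G.Db bb)
    (hN : ∀ x ∈ G.Nb ba, (x ∈ Si ↔ x ∈ Sb))
    (hci : (G.seg q bi ∩ G.cut Si).card * cB w < k)
    (hcb : (G.seg q bb ∩ G.cut Sb).card * cB w < k) :
    ∀ x, x ∈ G.Db ba ∨ x ∈ G.Nb ba → (x ∈ Si ↔ x ∈ Sb) := by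
  rintro x (hx | hx)
  swap
  · exact hN x hx
  by_contra hne
  obtain ⟨Z, hZ⟩ : ∃ Z : Finset (Fin (m + 1)), Z = (Si \ Sb ∪ Sb \ Si) ∩ G.Db ba := ⟨_, rfl⟩
  have hsub' : Z ⊆ G.Db ba := hZ ▸ inter_subset_right
  have hxZ : x ∈ Z := by
    simp [hZ, hx]
    tauto
  have hk := G.k_le_cut ⟨x, hxZ⟩
    (G.last_notMem_of_subset hq (hsub'.trans hsub))
  have hX : G.cut Z ⊆ (G.seg q bi ∩ G.cut Si) ∪ (G.seg q bb ∩ G.cut Sb) := by
    intro e he
    have hlo : G.lo e ∈ G.Db ba := by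
      rw [mem_cut] at he
      by_cases h : G.lo e ∈ Z
      · exact hsub' h
      · have h' : G.hi e ∈ Z := by tauto
        exact G.lo_Db_of_hi (hsub' h')
    have hsi : e ∈ G.seg q bi := G.mem_seg.mpr ⟨hsub hlo, hdi _ hlo⟩
    have hsb : e ∈ G.seg q bb := G.mem_seg.mpr ⟨hsub hlo, hdb _ hlo⟩
    have key : ∀ z, z ∈ G.Db ba ∨ z ∈ G.Nb ba → (z ∈ Z ↔ ¬(z ∈ Si ↔ z ∈ Sb)) := by
      rintro z (hz | hz)
      · simp [hZ, hz]
        tauto
      · have := hN z hz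
        simp [hZ]
        tauto
    rw [mem_cut, key _ (Or.inl hlo), key _ (G.hi_of_lo_Db hlo)] at he
    simp only [mem_union, mem_inter, mem_cut, hsi, hsb, true_and]
    tauto
  have h1 := two_light hX hci hcb
  have h2 := Nat.mul_le_mul_right (cB w) hk
  have h3 : k * 2 ≤ k * cB w := Nat.mul_le_mul_left k (by unfold cB; omega)
  omega

lemma triple_cut {q : Fin (m + 1)} {ba bi bb : Option (Fin (m + 1))}
    {Sa Si Sb d : Finset (Fin (m + 1))}
    (htop : ∀ x ∈ G.nb q, (x ∈ Sa ↔ x ∈ Si))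
    (hNa : ∀ x ∈ G.Nb ba, (x ∈ Si ↔ x ∈ Sb)) (hNb : ∀ x ∈ G.Nb bb, (x ∈ Si ↔ x ∈ Sa))
    (hd : d = ((Si \ Sa) \ Sb) ∩ ((G.D q \ G.Db bi) \ (G.Db ba ∪ G.Db bb))) :
    G.seg q bi ∩ G.cut d ⊆
      (G.seg q bi ∩ G.cut Si) ∪ ((G.seg q ba ∩ G.cut Sa) ∪ (G.seg q bb ∩ G.cut Sb)) := by
  intro f hf
  obtain ⟨hseg, hcut⟩ := mem_inter.mp hf
  rw [mem_cut] at hcut
  have hmem : ∀ z, z ∈ d ↔ ((z ∈ Si ∧ z ∉ Sa) ∧ z ∉ Sb) ∧
      ((z ∈ G.D q ∧ z ∉ G.Db bi) ∧ z ∉ G.Db ba ∧ z ∉ G.Db bb) := by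
    intro z
    simp [hd]
  have hia : G.lo f ∉ G.Db ba := by
    intro h
    have hl : G.lo f ∉ d := fun h' => ((hmem _).mp h').2.2.1 h
    obtain ⟨⟨⟨h1, -⟩, h2⟩, -, h3, -⟩ :=
      (hmem _).mp (not_not.mp fun h' => hcut (iff_of_false hl h'))
    rcases G.hi_of_lo_Db h with hN | hN
    · exact h3 hN
    · exact h2 ((hNa _ hN).mp h1)
  have hib : G.lo f ∉ G.Db bb := by
    intro h
    have hl : G.lo f ∉ d := fun h' => ((hmem _).mp h').2.2.2 h
    obtain ⟨⟨⟨h1, h2⟩, -⟩, -, -, h3⟩ :=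
      (hmem _).mp (not_not.mp fun h' => hcut (iff_of_false hl h'))
    rcases G.hi_of_lo_Db h with hN | hN
    · exact h3 hN
    · exact h2 ((hNb _ hN).mp h1)
  have hfa : f ∈ G.seg q ba := G.mem_seg.mpr ⟨(G.mem_seg.mp hseg).1, hia⟩
  have hfb : f ∈ G.seg q bb := G.mem_seg.mpr ⟨(G.mem_seg.mp hseg).1, hib⟩
  have key : ∀ z, z = G.lo f ∨ z = G.hi f → (z ∈ d ↔ (z ∈ Si ∧ z ∉ Sa) ∧ z ∉ Sb) := by
    intro z hz
    obtain ⟨h1, h2⟩ := G.seg_ends hseg hz
    obtain ⟨-, h3⟩ := G.seg_ends hfa hz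
    obtain ⟨-, h4⟩ := G.seg_ends hfb hz
    refine ⟨fun h => ((hmem z).mp h).1, fun h => (hmem z).mpr ⟨h, ?_⟩⟩
    rcases h1 with h1 | h1
    · exact ⟨⟨h1, h2⟩, h3, h4⟩
    · exact absurd ((htop z h1).mpr h.1.1) h.1.2
  rw [key _ (Or.inl rfl), key _ (Or.inr rfl)] at hcut
  simp only [mem_union, mem_inter, mem_cut, hseg, hfa, hfb, true_and]
  clear * - hcut
  tauto

lemma triple_false {q : Fin (m + 1)} (hq : q ≠ Fin.last m)
    {ba bi bb : Option (Fin (m + 1))} {Sa Si Sb : Finset (Fin (m + 1))}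
    (hba : G.Db ba ⊆ G.D q) (hbb : G.Db bb ⊆ G.D q)
    (hai : ∀ x ∈ G.Db ba, x ∉ G.Db bi) (hab : ∀ x ∈ G.Db ba, x ∉ G.Db bb)
    (hib : ∀ x ∈ G.Db bb, x ∉ G.Db bi)
    (htop : ∀ x ∈ G.nb q, (x ∈ Sa ↔ x ∈ Si))
    (hNa : ∀ x ∈ G.Nb ba, (x ∈ Si ↔ x ∈ Sb)) (hNb : ∀ x ∈ G.Nb bb, (x ∈ Si ↔ x ∈ Sa))
    (hca : (G.seg q ba ∩ G.cut Sa).card * cB w < k)
    (hci : (G.seg q bi ∩ G.cut Si).card * cB w < k)
    (hcb : (G.seg q bb ∩ G.cut Sb).card * cB w < k)
    {e : E} (he : e ∈ G.seg q bi) {x y : Fin (m + 1)}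
    (hxy : (x = G.lo e ∧ y = G.hi e) ∨ (x = G.hi e ∧ y = G.lo e))
    (hxi : x ∉ Si) (hyi : y ∈ Si)
    (hna : e ∈ G.seg q ba → e ∉ G.cut Sa ∧ x ∉ Sa)
    (hnb : e ∈ G.seg q bb → e ∉ G.cut Sb ∧ x ∉ Sb)
    (hd : ∀ d ⊆ G.D q \ G.Db bi, y ∈ d → 4 * k ≤ (G.seg q bi ∩ G.cut d).card * cB w) :
    False := by
  have agA := G.agree_below hq hba hai hab hNa hci hcb
  have agB := G.agree_below hq hbb hib (fun z hz h => hab z h hz) hNb hci hca
  have hlo := (G.mem_seg.mp he).1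
  have hcross : e ∈ G.cut Si := (G.cut_iff hxy).mpr fun h => hxi (h.mpr hyi)
  have ha1 : G.lo e ∉ G.Db ba := by
    intro h
    have h1 := agA _ (Or.inl h)
    have h2 := agA _ (G.hi_of_lo_Db h)
    refine (hnb (G.mem_seg.mpr ⟨hlo, hab _ h⟩)).1 ?_
    rw [mem_cut, ← h1, ← h2]
    exact G.mem_cut.mp hcross
  have hb1 : G.lo e ∉ G.Db bb := by
    intro h
    have h1 := agB _ (Or.inl h)
    have h2 := agB _ (G.hi_of_lo_Db h)
    refine (hna (G.mem_seg.mpr ⟨hlo, fun h' => hab _ h' h⟩)).1 ?_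
    rw [mem_cut, ← h1, ← h2]
    exact G.mem_cut.mp hcross
  have hsa : e ∈ G.seg q ba := G.mem_seg.mpr ⟨hlo, ha1⟩
  have hsb : e ∈ G.seg q bb := G.mem_seg.mpr ⟨hlo, hb1⟩
  obtain ⟨hna1, hna2⟩ := hna hsa
  obtain ⟨hnb1, hnb2⟩ := hnb hsb
  rw [G.cut_iff hxy] at hna1 hnb1
  set d := ((Si \ Sa) \ Sb) ∩ ((G.D q \ G.Db bi) \ (G.Db ba ∪ G.Db bb)) with hddef
  have hyd : y ∈ d := by
    have hz : y = G.lo e ∨ y = G.hi e :=
      hxy.elim (fun h => Or.inr h.2) (fun h => Or.inl h.2)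
    obtain ⟨h1, h2⟩ := G.seg_ends he hz
    obtain ⟨-, h3⟩ := G.seg_ends hsa hz
    obtain ⟨-, h4⟩ := G.seg_ends hsb hz
    have h5 : y ∉ Sa := fun h => hna2 ((not_not.mp hna1).mpr h)
    have h6 : y ∉ Sb := fun h => hnb2 ((not_not.mp hnb1).mpr h)
    rcases h1 with h1 | h1
    · simp only [hddef, mem_inter, mem_sdiff, mem_union, not_or]
      exact ⟨⟨⟨hyi, h5⟩, h6⟩, ⟨h1, h2⟩, h3, h4⟩
    · exact absurd ((htop y h1).mpr hyi) h5
  have hX := G.triple_cut (ba := ba) (bb := bb) (bi := bi) htop hNa hNb hddef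
  have h1 := Nat.mul_le_mul_right (cB w)
    (le_trans (card_le_card hX) (le_trans (card_union_le _ _)
      (Nat.add_le_add_left (card_union_le _ _) _)))
  rw [Nat.add_mul, Nat.add_mul] at h1
  have h2 := hd d (fun z hz => (mem_sdiff.mp (mem_inter.mp hz).2).1) hyd
  have := G.k_pos
  omega

open scoped Classical in
/-- Some edge between two clusters has no excuse. -/
theorem exists_good {q : Fin (m + 1)} (hq : q ≠ Fin.last m) (F : Finset E)
    (xe : Bool → E → Fin (m + 1)) (C : Bool → Finset (Fin (m + 1)))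
    (hxe : ∀ e ∈ F, ∀ s, xe s e ∈ C s ∧
      ((xe s e = G.lo e ∧ xe (!s) e = G.hi e) ∨ (xe s e = G.hi e ∧ xe (!s) e = G.lo e)))
    (hF : k ≤ w * F.card) : ∃ e ∈ F, ¬ G.Excuse q F xe C e := by
  by_contra hcon
  push Not at hcon
  have hne : F.Nonempty := by
    rcases F.eq_empty_or_nonempty with rfl | h
    · have := G.k_pos
      simp at hF
      omega
    · exact h
  choose! b S s hbel hseg hx hy hC hη hε hd using hcon
  set out : E → Finset E := fun a => F ∩ (G.seg q (b a) ∩ G.cut (S a)) with hout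
  set dmax := F.sup fun a => (out a).card with hdmax
  obtain ⟨I, hIF, hIc, hI⟩ :=
    exists_indep out dmax F fun a ha => le_sup (f := fun a => (out a).card) ha
  obtain ⟨a0, ha0, hd0⟩ := exists_mem_eq_sup F hne fun a => (out a).card
  have hd1 : 1 ≤ dmax := by
    obtain ⟨e0, he0⟩ := hne
    refine le_trans ?_ (le_sup (f := fun a => (out a).card) he0)
    refine card_pos.mpr ⟨e0, mem_inter.mpr ⟨he0, mem_inter.mpr ⟨hseg e0 he0, ?_⟩⟩⟩
    exact (G.cut_iff (hxe e0 he0 (s e0)).2).mpr (by have := hx e0 he0; have := hy e0 he0; tauto)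
  have hbig : triBound (Fintype.card (Col w)) < I.card := by
    have h1 : dmax * cA w < k := by
      rw [hdmax, hd0]
      exact hη a0 ha0
    have h2 : k ≤ 3 * w * dmax * I.card := by
      refine le_trans hF (le_trans (Nat.mul_le_mul_left w hIc) ?_)
      rw [← Nat.mul_assoc]
      refine Nat.mul_le_mul_right _ ?_
      rw [Nat.mul_comm 3 w, Nat.mul_assoc]
      exact Nat.mul_le_mul_left w (by omega)
    have h3 : 3 * w * dmax * (triBound (Fintype.card (Col w)) + 1) < 3 * w * dmax * I.card :=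
      lt_of_lt_of_le (lt_of_eq_of_lt (by unfold cA; ring) h1) h2
    have := Nat.lt_of_mul_lt_mul_left h3
    omega
  obtain ⟨φ⟩ : Nonempty (E ≃ Fin (Fintype.card E)) := ⟨Fintype.equivFin E⟩
  set top : E → Bool × (Fin w → Bool) := fun a => (s a, code (G.nb q) (S a)) with htop
  set c : Fin (Fintype.card E) → Fin (Fintype.card E) → Col w := fun i j =>
    (top (φ.symm i), top (φ.symm j), code (G.Nb (b (φ.symm j))) (S (φ.symm i)),
      code (G.Nb (b (φ.symm i))) (S (φ.symm j))) with hc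
  obtain ⟨ia, hia, ii, hii, ib, hib, hlt1, hlt2, hc1, hc2⟩ := exists_triangle c
    (Fintype.card (Col w)) univ (I.map φ.toEmbedding) le_rfl (fun _ _ _ _ _ => mem_univ _)
    (by rwa [card_map])
  set a := φ.symm ia
  set i := φ.symm ii
  set b' := φ.symm ib
  have haI : a ∈ I := by simpa [a, mem_map_equiv] using hia
  have hiI : i ∈ I := by simpa [i, mem_map_equiv] using hii
  have hbI : b' ∈ I := by simpa [b', mem_map_equiv] using hib
  have hne1 : a ≠ i := fun h => hlt1.ne (φ.symm.injective h)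
  have hne2 : i ≠ b' := fun h => hlt2.ne (φ.symm.injective h)
  have hne3 : a ≠ b' := fun h => (hlt1.trans hlt2).ne (φ.symm.injective h)
  obtain ⟨e2, e3, e4⟩ : top i = top b' ∧
      code (w := w) (G.Nb (b i)) (S a) = code (G.Nb (b b')) (S a) ∧
      code (w := w) (G.Nb (b a)) (S i) = code (G.Nb (b a)) (S b') := by
    simp only [hc, Prod.mk.injEq] at hc1
    exact ⟨hc1.2.1, hc1.2.2.1, hc1.2.2.2⟩
  obtain ⟨f1, f3, f4⟩ : top i = top a ∧
      code (w := w) (G.Nb (b b')) (S i) = code (G.Nb (b b')) (S a) ∧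
      code (w := w) (G.Nb (b i)) (S b') = code (G.Nb (b a)) (S b') := by
    simp only [hc, Prod.mk.injEq] at hc2
    exact ⟨hc2.1, hc2.2.2.1, hc2.2.2.2⟩
  have hs : ∀ {p r : E}, top p = top r → s p = s r ∧ ∀ x ∈ G.nb q, (x ∈ S p ↔ x ∈ S r) :=
    fun h => ⟨congrArg Prod.fst h, code_eq (G.nb_card q) (congrArg Prod.snd h)⟩
  have tri : ∀ p ∈ ({a, i, b'} : Finset E), top p = top i := by
    intro p hp
    simp only [mem_insert, mem_singleton] at hp
    rcases hp with rfl | rfl | rfl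
    exacts [f1.symm, rfl, e2.symm]
  have memI : ∀ p ∈ ({a, i, b'} : Finset E), p ∈ I := by simp [haI, hiI, hbI]
  have stay : ∀ {p r : E}, p ∈ I → r ∈ I → p ≠ r → s p = s r → r ∈ G.seg q (b p) →
      r ∉ G.cut (S p) ∧ xe (s r) r ∉ S p := by
    intro p r hp hr hpr hsr hseg'
    refine ⟨fun h => hI p hp r hr hpr (mem_inter.mpr ⟨hIF hr, mem_inter.mpr ⟨hseg', h⟩⟩), ?_⟩
    obtain ⟨h1, h2⟩ := hxe r (hIF hr) (s r)
    have hz : xe (s r) r = G.lo r ∨ xe (s r) r = G.hi r := by tauto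
    obtain ⟨h3, h4⟩ := G.seg_ends hseg' hz
    refine hC p (hIF hp) _ ?_ h3 h4
    rw [hsr]
    exact h1
  by_cases hnest : ∃ p ∈ ({a, i, b'} : Finset E), ∃ r ∈ ({a, i, b'} : Finset E),
      p ≠ r ∧ G.Db (b p) ⊆ G.Db (b r)
  · obtain ⟨p, hp, r, hr, hpr, hsub⟩ := hnest
    obtain ⟨hst, htt⟩ := hs ((tri p hp).trans (tri r hr).symm)
    have hrI := memI r hr
    have hrp : r ∈ G.seg q (b p) := G.mem_seg.mpr
      ⟨(G.mem_seg.mp (hseg r (hIF hrI))).1,
        fun h => (G.mem_seg.mp (hseg r (hIF hrI))).2 (hsub h)⟩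
    obtain ⟨h1, h2⟩ := stay (memI p hp) hrI hpr hst hrp
    have hxy := (hxe r (hIF hrI) (s r)).2
    rw [G.cut_iff hxy] at h1
    obtain ⟨h5, h6⟩ := G.seg_ends (hseg r (hIF hrI))
      (z := xe (!s r) r) (by tauto)
    exact G.nested_false hsub htt (hε p (hIF (memI p hp))) (hε r (hIF hrI)) h5 h6
      (hy r (hIF hrI)) (by tauto) (hd r (hIF hrI))
  · push Not at hnest
    have disj : ∀ p ∈ ({a, i, b'} : Finset E), ∀ r ∈ ({a, i, b'} : Finset E), p ≠ r →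
        ∀ z ∈ G.Db (b p), z ∉ G.Db (b r) := by
      intro p hp r hr hpr z hzp hzr
      have h1 := hnest p hp r hr hpr
      have h2 := hnest r hr p hp (Ne.symm hpr)
      cases hbp : b p with
      | none => simp [hbp, Db] at hzp
      | some u =>
        cases hbr : b r with
        | none => simp [hbr, Db] at hzr
        | some v =>
          simp only [hbp, hbr, Db] at hzp hzr h1 h2
          rcases G.desc_comparable (G.mem_D.mp hzp) (G.mem_D.mp hzr) with h | h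
          exacts [h1 (G.D_mono h), h2 (G.D_mono h)]
    obtain ⟨hsi, htai⟩ := hs f1.symm
    obtain ⟨hsb, -⟩ := hs e2
    exact G.triple_false hq (G.Db_subset (hbel a (hIF haI))) (G.Db_subset (hbel b' (hIF hbI)))
      (disj a (by simp) i (by simp) hne1) (disj a (by simp) b' (by simp) hne3)
      (disj b' (by simp) i (by simp) hne2.symm) htai
      (code_eq (G.Nb_card _) e4) (code_eq (G.Nb_card _) f3)
      (hε a (hIF haI)) (hε i (hIF hiI)) (hε b' (hIF hbI)) (hseg i (hIF hiI))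
      (hxe i (hIF hiI) (s i)).2 (hx i (hIF hiI)) (hy i (hIF hiI))
      (stay haI hiI hne1 hsi) (stay hbI hiI hne2.symm hsb.symm) (hd i (hIF hiI))

end Sys

end Vale.Agent.P061.TW
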