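import Vale.Agent.P061.TW.Cluster
import Vale.Agent.P061.TW.Good

/-!
For a fixed cut, few vertices cover the heavy parts of the elimination tree, and along the
ancestors of one of them only boundedly many merges can be crossed by chosen edges.
-/

namespace Vale.Agent.P061.TW

open Finset

namespace Sys

variable {m : ℕ} {E : Type} [Fintype E] {w k : ℕ} (G : Sys m E w k)

open scoped Classical in
lemma exists_light (S : Finset (Fin (m + 1))) : ∃ M0 : Finset (Fin (m + 1)),
    k * M0.card ≤ cB w * (G.cut S).card ∧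
    ∀ q ∉ M0, ((G.cut S).filter fun e =>
      G.lo e ∈ G.D q ∧ ∀ x ∈ M0, x < q → G.lo e ∉ G.D x).card * cB w < k := by
  suffices h : ∀ i, i ≤ m + 1 → ∃ M0 : Finset (Fin (m + 1)), (∀ x ∈ M0, x.val < i) ∧
      k * M0.card ≤ cB w * ((G.cut S).filter fun e => ∃ x ∈ M0, G.lo e ∈ G.D x).card ∧
      ∀ q : Fin (m + 1), q.val < i → q ∉ M0 → ((G.cut S).filter fun e =>
        G.lo e ∈ G.D q ∧ ∀ x ∈ M0, x < q → G.lo e ∉ G.D x).card * cB w < k by
    obtain ⟨M0, -, h1, h2⟩ := h (m + 1) le_rfl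
    exact ⟨M0, le_trans h1 (Nat.mul_le_mul_left _ (card_filter_le _ _)),
      fun q hq => h2 q q.isLt hq⟩
  intro i
  induction i with
  | zero => exact fun _ => ⟨∅, by simp, by simp, fun q hq => absurd hq (Nat.not_lt_zero _)⟩
  | succ i ih =>
    intro hi
    obtain ⟨M0, hlt, hcard, hlight⟩ := ih (by omega)
    set q0 : Fin (m + 1) := ⟨i, by omega⟩ with hq0
    set A := (G.cut S).filter fun e =>
      G.lo e ∈ G.D q0 ∧ ∀ x ∈ M0, x < q0 → G.lo e ∉ G.D x with hA
    by_cases hh : A.card * cB w < k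
    · refine ⟨M0, fun x hx => Nat.lt_succ_of_lt (hlt x hx), hcard, fun q hq hq' => ?_⟩
      rcases Nat.lt_succ_iff_lt_or_eq.mp hq with h | h
      · exact hlight q h hq'
      · rw [show q = q0 from Fin.ext h]
        exact hh
    · have hn : q0 ∉ M0 := fun h => absurd (hlt q0 h) (by simp [hq0])
      refine ⟨insert q0 M0, ?_, ?_, fun q hq hq' => ?_⟩
      · intro x hx
        rcases mem_insert.mp hx with rfl | h
        · simp [hq0]
        · exact Nat.lt_succ_of_lt (hlt x h)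
      · rw [card_insert_of_notMem hn, Nat.mul_add, Nat.mul_one]
        set U := (G.cut S).filter fun e => ∃ x ∈ M0, G.lo e ∈ G.D x with hU
        have hdisj : Disjoint U A := by
          rw [disjoint_left]
          intro e h1 h2
          obtain ⟨x, hx, hex⟩ := (mem_filter.mp h1).2
          exact (mem_filter.mp h2).2.2 x hx (hlt x hx) hex
        have hsub : U ∪ A ⊆
            (G.cut S).filter fun e => ∃ x ∈ insert q0 M0, G.lo e ∈ G.D x := by
          intro e he
          rcases mem_union.mp he with h | h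
          · obtain ⟨x, hx, hex⟩ := (mem_filter.mp h).2
            exact mem_filter.mpr ⟨(mem_filter.mp h).1, x, mem_insert_of_mem hx, hex⟩
          · exact mem_filter.mpr
              ⟨(mem_filter.mp h).1, q0, mem_insert_self _ _, (mem_filter.mp h).2.1⟩
        have h1 := Nat.mul_le_mul_left (cB w) (card_le_card hsub)
        rw [card_union_of_disjoint hdisj, Nat.mul_add] at h1
        rw [Nat.mul_comm A.card] at hh
        omega
      · rw [mem_insert, not_or] at hq'
        have hqi : q.val < i := by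
          rcases Nat.lt_succ_iff_lt_or_eq.mp hq with h | h
          · exact h
          · exact absurd (Fin.ext h) hq'.1
        refine lt_of_le_of_lt (Nat.mul_le_mul_right _ (card_le_card fun e he => ?_))
          (hlight q hqi hq'.2)
        obtain ⟨h1, h2, h3⟩ := mem_filter.mp he
        exact mem_filter.mpr ⟨h1, h2, fun x hx => h3 x (mem_insert_of_mem hx)⟩

lemma exists_child {x u : Fin (m + 1)} (h : G.Desc x u) (hne : x ≠ u) :
    ∃ c, G.IsPar c u ∧ G.Desc x c := by
  rcases Relation.ReflTransGen.cases_tail h with h | ⟨c, h1, h2⟩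
  · exact absurd h.symm hne
  · exact ⟨c, h2, h1⟩

lemma child_disjoint {c c' u : Fin (m + 1)} (hc : G.IsPar c u) (hc' : G.IsPar c' u)
    (hne : c ≠ c') : ∀ x ∈ G.D c, x ∉ G.D c' := by
  have key : ∀ {a b : Fin (m + 1)}, G.IsPar a u → G.IsPar b u → G.Desc a b → a = b := by
    intro a b ha hb hab
    rcases Relation.ReflTransGen.cases_head hab with h | ⟨p, hp, hpb⟩
    · exact h
    · rw [G.isPar_unique hp ha] at hpb
      exact absurd (G.desc_le hpb) (not_le.mpr (G.nb_gt b u hb.1))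
  exact G.D_disjoint (fun h => hne (key hc hc' h)) fun h => hne (key hc' hc h).symm

open scoped Classical in
lemma exists_closure (M0 : Finset (Fin (m + 1))) : ∃ M : Finset (Fin (m + 1)),
    M0 ⊆ M ∧ M.card ≤ 2 * M0.card ∧
    ∀ q, ∀ b ∈ M, b ∈ G.D q → (∀ x ∈ M, x ∈ G.D q → x ≤ b) →
      ∀ x ∈ M0, x ∈ G.D q → x ∈ G.D b := by
  set Br := univ.filter fun u : Fin (m + 1) => ∃ c c', c ≠ c' ∧ G.IsPar c u ∧ G.IsPar c' u ∧
    (∃ x ∈ M0, x ∈ G.D c) ∧ ∃ x ∈ M0, x ∈ G.D c' with hBr
  refine ⟨M0 ∪ Br, subset_union_left, ?_, ?_⟩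
  · have key : ∀ u ∈ Br, ∃ x ∈ M0, ∃ c, G.IsPar c u ∧ x ∈ G.D c ∧
        (∀ y ∈ M0, y ∈ G.D c → y ≤ x) ∧ ∃ z ∈ M0, z ∈ G.D u ∧ x < z := by
      intro u hu
      obtain ⟨c, c', hne, hc, hc', ⟨x, hx, hxc⟩, ⟨x', hx', hxc'⟩⟩ := (mem_filter.mp hu).2
      obtain ⟨y, hy, hymax⟩ := (M0.filter fun z => z ∈ G.D c).exists_max_image id
        ⟨x, mem_filter.mpr ⟨hx, hxc⟩⟩
      obtain ⟨y', hy', hymax'⟩ := (M0.filter fun z => z ∈ G.D c').exists_max_image id
        ⟨x', mem_filter.mpr ⟨hx', hxc'⟩⟩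
      simp only [mem_filter, id_eq, and_imp] at hy hy' hymax hymax'
      have hsub := G.D_mono (Relation.ReflTransGen.single hc)
      have hsub' := G.D_mono (Relation.ReflTransGen.single hc')
      have hne' : y ≠ y' := fun h => G.child_disjoint hc hc' hne y hy.2 (h ▸ hy'.2)
      rcases lt_or_gt_of_ne hne' with h | h
      · exact ⟨y, hy.1, c, hc, hy.2, hymax, y', hy'.1, hsub' hy'.2, h⟩
      · exact ⟨y', hy'.1, c', hc', hy'.2, hymax', y, hy.1, hsub hy.2, h⟩
    choose! f hf c hc hfc hmax z hz hzu hfz using key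
    have hinj : Set.InjOn f (Br : Set (Fin (m + 1))) := by
      intro u hu v hv huv
      wlog hle : u ≤ v generalizing u v with H
      · exact (H hv hu huv.symm (le_of_not_ge hle)).symm
      by_contra hne
      have h1 : G.Desc (f u) (c u) := G.mem_D.mp (hfc u hu)
      have h2 : G.Desc (f u) (c v) := by
        rw [huv]
        exact G.mem_D.mp (hfc v hv)
      have h3 : G.Desc (f u) u := G.desc_trans h1 (Relation.ReflTransGen.single (hc u hu))
      have h4 : G.Desc u (c v) := by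
        rcases G.desc_comparable h3 h2 with h | h
        · exact h
        · rcases Relation.ReflTransGen.cases_head h with h | ⟨p, hp, hpu⟩
          · exact h ▸ G.desc_refl _
          · rw [G.isPar_unique hp (hc v hv)] at hpu
            exact absurd (le_antisymm hle (G.desc_le hpu)) hne
      have := hmax v hv (z u) (hz u hu) (G.D_mono h4 (hzu u hu))
      rw [← huv] at this
      exact absurd this (not_le.mpr (hfz u hu))
    have h1 := card_le_card_of_injOn f (fun u hu => hf u hu) hinj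
    have h2 := card_union_le M0 Br
    omega
  · intro q b hb hbq hmax x hx hxq
    by_contra hxb
    have hbD : ∃ y ∈ M0, y ∈ G.D b := by
      rcases mem_union.mp hb with h | h
      · exact ⟨b, h, G.mem_D_self b⟩
      · obtain ⟨c, c', -, hc, -, ⟨y, hy, hyc⟩, -⟩ := (mem_filter.mp h).2
        exact ⟨y, hy, G.D_mono (Relation.ReflTransGen.single hc) hyc⟩
    obtain ⟨y, hy, hyb⟩ := hbD
    obtain ⟨u, hu, humin⟩ := (univ.filter fun u => G.Desc b u ∧ G.Desc x u).exists_min_image id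
      ⟨q, by simp [G.mem_D.mp hbq, G.mem_D.mp hxq]⟩
    simp only [mem_filter, mem_univ, true_and, id_eq, and_imp] at hu humin
    obtain ⟨hbu, hxu⟩ := hu
    have hub : b ≠ u := fun h => hxb (G.mem_D.mpr (h ▸ hxu))
    have huq : G.Desc u q :=
      G.desc_of_le hbu (G.mem_D.mp hbq) (humin q (G.mem_D.mp hbq) (G.mem_D.mp hxq))
    have hxne : x ≠ u := fun h => hub (le_antisymm (G.desc_le hbu)
      (h ▸ hmax x (mem_union_left _ hx) hxq))
    obtain ⟨c, hc, hbc⟩ := G.exists_child hbu hub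
    obtain ⟨c', hc', hxc⟩ := G.exists_child hxu hxne
    have hne : c ≠ c' := by
      rintro rfl
      exact absurd (humin c hbc hxc) (not_le.mpr (G.nb_gt c u hc.1))
    have hu' : u ∈ Br := mem_filter.mpr ⟨mem_univ _, c, c', hne, hc, hc',
      ⟨y, hy, G.D_mono hbc hyb⟩, x, hx, G.mem_D.mpr hxc⟩
    exact hub (le_antisymm (G.desc_le hbu)
      (hmax u (mem_union_right _ hu') (G.mem_D.mpr huq)))

lemma meets_window {p q : Fin (m + 1)} {e : E} (he : e ∈ G.F q)
    (hpq : p < q) (hlo : G.lo e ∈ G.D p) : G.Meets q (G.nb p) := by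
  have hp : p ≠ Fin.last m := ne_of_lt (lt_of_lt_of_le hpq (Fin.le_last q))
  obtain ⟨z, hz, hz'⟩ := G.meets_nb hp (Or.inl hlo : G.lo e ∈ G.D p ∨ G.lo e ∈ G.nb p) hpq
  obtain ⟨z', hzz, hzz'⟩ := G.meets_nb hp (G.hi_of_lo hlo) hpq
  rcases G.mem_F.mp he with ⟨h1, h2⟩ | ⟨h1, h2⟩
  · exact ⟨⟨z, hz, hz'.trans h1⟩, ⟨z', hzz, hzz'.trans h2⟩⟩
  · exact ⟨⟨z', hzz, hzz'.trans h2⟩, ⟨z, hz, hz'.trans h1⟩⟩

lemma piece_meets {b c0 n0 : Fin (m + 1)} (hn0 : n0 ≠ Fin.last m) (hb : G.Desc b c0)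
    {P : Finset (Fin (m + 1))} (hP : P ⊆ G.D n0 \ G.D b) (hout : ∃ z ∈ P, z ∉ G.D c0)
    {t : ℕ} (ht : t ≤ w + 1) [DecidableEq E]
    (hcut : (G.seg n0 (some b) ∩ G.cut P).card * cB w ≤ t * (4 * k)) :
    ∃ z ∈ P, z ∈ G.nb c0 := by
  by_contra hcon
  push Not at hcon
  obtain ⟨z, hz, hz'⟩ := hout
  have hPn : P \ G.D c0 ⊆ G.D n0 := fun x hx => (mem_sdiff.mp (hP (mem_sdiff.mp hx).1)).1
  have hk := G.k_le_cut ⟨z, mem_sdiff.mpr ⟨hz, hz'⟩⟩ (G.last_notMem_of_subset hn0 hPn)
  have hsub : G.cut (P \ G.D c0) ⊆ G.seg n0 (some b) ∩ G.cut P := by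
    intro e he
    have hlo := G.lo_mem_of_cut hPn he
    rw [mem_cut, mem_sdiff, mem_sdiff] at he
    have hout' : G.lo e ∉ G.D c0 := by
      intro h
      rcases G.hi_of_lo h with h' | h'
      · tauto
      · have h1 : G.hi e ∉ P := fun h'' => hcon _ h'' h'
        tauto
    have hhi : G.hi e ∉ G.D c0 := fun h => hout' (G.lo_mem_of_hi h)
    refine mem_inter.mpr ⟨G.mem_seg.mpr ⟨hlo, fun h => hout' (G.D_mono hb h)⟩, ?_⟩
    rw [mem_cut]
    tauto
  have h1 := Nat.mul_le_mul_right (cB w) (le_trans hk (card_le_card hsub))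
  have h2 : t * (4 * k) ≤ (w + 1) * (4 * k) := Nat.mul_le_mul_right _ ht
  have h3 : (w + 1) * (4 * k) < k * cB w := by
    have := G.k_pos
    rw [show k * cB w = (2 * w + 4) * (4 * k) by unfold cB; ring]
    exact Nat.mul_lt_mul_of_pos_right (by omega) (by omega)
  omega

end Sys

end Vale.Agent.P061.TW
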