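import Vale.Agent.P061.TW.Count
import Vale.Agent.P061.TW.Decomp
import Mathlib.Combinatorics.SimpleGraph.Connectivity.Connected

/-!
The chosen edges form a spanning tree.
-/

namespace Vale.Agent.P061.TW

open Finset

namespace Sys

variable {m : ℕ} {E : Type} [Fintype E] [DecidableEq E] {w k : ℕ} (G : Sys m E w k)

/-- The edge set given by a choice. -/
def treeEdges (e : Fin (m + 1) → E) : Finset E :=
  ((univ : Finset (Fin (m + 1))).erase (Fin.last m)).image e

lemma treeEdges_card {e : Fin (m + 1) → E} (he : G.GoodChoice e) :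
    (treeEdges e).card + 1 = m + 1 := by
  rw [treeEdges, card_image_of_injOn, card_erase_of_mem (mem_univ _), card_univ,
    Fintype.card_fin]
  · omega
  · intro p hp q hq hpq
    by_contra hne
    have hp' := (mem_erase.mp hp).1
    have hq' := (mem_erase.mp hq).1
    exact G.F_disjoint hp' hq' hne (he p hp').1 (hpq ▸ (he q hq').1)

lemma treeEdges_cut {e : Fin (m + 1) → E} (he : G.GoodChoice e) (S : Finset (Fin (m + 1))) :
    k * ((treeEdges e).filter fun f => f ∈ G.cut S).card ≤
      (2 * cA w + 4 * cB w * ((w + 1) * (w + 1))) * (G.cut S).card := by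
  classical
  refine le_trans (Nat.mul_le_mul_left k ?_) (G.crossing_bound he S)
  refine le_trans (card_le_card (t := (univ.filter fun q =>
    q ≠ Fin.last m ∧ e q ∈ G.cut S).image e) ?_) card_image_le
  exact fun f hf => by
    obtain ⟨h1, h2⟩ := mem_filter.mp hf
    obtain ⟨q, hq, rfl⟩ := mem_image.mp h1
    exact mem_image.mpr ⟨q, mem_filter.mpr ⟨mem_univ _, (mem_erase.mp hq).1, h2⟩, rfl⟩

lemma treeEdges_connected {V : Type} {e : Fin (m + 1) → E} (he : G.GoodChoice e)
    (φ : Fin (m + 1) ≃ V) (ends : E → Sym2 V)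
    (hends : ∀ f, ends f = s(φ (G.lo f), φ (G.hi f))) :
    (SimpleGraph.fromEdgeSet (ends '' (treeEdges e : Set E))).Connected := by
  set H := SimpleGraph.fromEdgeSet (ends '' (treeEdges e : Set E)) with hH
  have step : ∀ i, i ≤ m → ∀ u, H.Reachable (φ u) (φ (G.rt i u)) := by
    intro i
    induction i with
    | zero =>
      intro _ u
      rw [rt_zero]
    | succ i ih =>
      intro hi u
      have hi' : i < m := by omega
      rw [G.rt_succ hi']
      split_ifs with h
      · set q0 : Fin (m + 1) := ⟨i, by omega⟩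
        have hq : q0 ≠ Fin.last m := by simp [q0, Fin.ext_iff]; omega
        refine (ih (by omega) u).trans ?_
        rw [h]
        have hF := (he q0 hq).1
        have hadj : H.Adj (φ (G.lo (e q0))) (φ (G.hi (e q0))) := by
          rw [hH, SimpleGraph.fromEdgeSet_adj]
          refine ⟨⟨e q0, ?_, hends _⟩, fun h => (G.lo_lt_hi _).ne (φ.injective h)⟩
          exact mem_image.mpr ⟨q0, mem_erase.mpr ⟨hq, mem_univ _⟩, rfl⟩
        have r1 : H.Reachable (φ (G.lo (e q0))) (φ (G.rt i (G.lo (e q0)))) := ih (by omega) _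
        have r2 : H.Reachable (φ (G.hi (e q0))) (φ (G.rt i (G.hi (e q0)))) := ih (by omega) _
        rcases G.mem_F.mp hF with ⟨h1, h2⟩ | ⟨h1, h2⟩
        · rw [show G.rt i (G.lo (e q0)) = q0 from h1] at r1
          rw [show G.rt i (G.hi (e q0)) = G.tgt q0 from h2] at r2
          exact r1.symm.trans (hadj.reachable.trans r2)
        · rw [show G.rt i (G.lo (e q0)) = G.tgt q0 from h1] at r1
          rw [show G.rt i (G.hi (e q0)) = q0 from h2] at r2
          exact r2.symm.trans (hadj.reachable.symm.trans r1)
      · exact ih (by omega) u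
  have top : ∀ v, H.Reachable v (φ (Fin.last m)) := by
    intro v
    have h := step m le_rfl (φ.symm v)
    rw [Equiv.apply_symm_apply] at h
    have hl : G.rt m (φ.symm v) = Fin.last m :=
      Fin.ext (le_antisymm (Fin.le_last _) ((G.inv m le_rfl).1 _))
    rwa [hl] at h
  exact { preconnected := fun u v => (top u).trans (top v).symm
          nonempty := ⟨φ (Fin.last m)⟩ }

end Sys

end Vale.Agent.P061.TW
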